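import Vale.Agent.P209.H686.LeftEL

/-!
# The change of gauge
-/

namespace Vale.Agent.P209.H686

open Vale.Agent.P209 H684 H578 H721 H974 H687
open Vale.Agent.P209.Strong hiding chi
open scoped ContDiff

variable {R : ℝ}

/-- the area of the last coordinate -/
noncomputable def rst (R : ℝ) (X : Fin 3 → ℂ) : ℝ := R - ar (X 0) - ar (X 1) - ar (X 2)

/-- the change of gauge with a local lift of the angle -/
noncomputable def gaub (R : ℝ) (β : ℂ → ℝ) (X : Fin 3 → ℂ) : Fin 3 → ℂ :=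
  ![ee (-β (X 2)) * X 0, ee (-β (X 2)) * X 1,
    phiA (((rst R X : ℝ) : ℂ) + ((-β (X 2) : ℝ) : ℂ) * Complex.I)]

theorem gau_eq {X : Fin 3 → ℂ} {β : ℂ → ℝ} (h : uph (X 2) = ee (β (X 2))) :
    gau R X = gaub R β X := by
  unfold gau gaub
  rw [phiA_polar, h, conj_ee]
  funext i
  fin_cases i
  · exact mul_comm _ _
  · exact mul_comm _ _
  · rfl

theorem rst_contDiff : ContDiff ℝ ∞ (rst R) :=
  ((contDiff_const.sub (ar_contDiff.comp (contDiff_apply ℝ ℂ (0 : Fin 3)))).sub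
    (ar_contDiff.comp (contDiff_apply ℝ ℂ (1 : Fin 3)))).sub
      (ar_contDiff.comp (contDiff_apply ℝ ℂ (2 : Fin 3)))

theorem gaub_contDiffAt {X : Fin 3 → ℂ} {β : ℂ → ℝ} (hβ : ContDiffAt ℝ ∞ β (X 2))
    (hr : 0 < rst R X) : ContDiffAt ℝ ∞ (gaub R β) X := by
  have hb : ContDiffAt ℝ ∞ (fun X : Fin 3 → ℂ => -β (X 2)) X :=
    (ContDiffAt.comp (g := β) (f := fun X : Fin 3 → ℂ => X 2) X hβ
      (contDiff_apply ℝ ℂ (2 : Fin 3)).contDiffAt).neg
  have he : ContDiffAt ℝ ∞ (fun X : Fin 3 → ℂ => ee (-β (X 2))) X :=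
    ee_contDiff.contDiffAt.comp X hb
  rw [contDiffAt_pi]
  intro i
  fin_cases i
  · exact he.mul (contDiff_apply ℝ ℂ (0 : Fin 3)).contDiffAt
  · exact he.mul (contDiff_apply ℝ ℂ (1 : Fin 3)).contDiffAt
  · have h1 : ContDiffAt ℝ ∞ (fun X : Fin 3 → ℂ =>
        ((rst R X : ℝ) : ℂ) + ((-β (X 2) : ℝ) : ℂ) * Complex.I) X :=
      (Complex.ofRealCLM.contDiff.contDiffAt.comp X rst_contDiff.contDiffAt).add
        ((Complex.ofRealCLM.contDiff.contDiffAt.comp X hb).mul contDiffAt_const)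
    exact ContDiffAt.comp (g := phiA) X (phiA_contDiffAt (by simpa using hr)) h1

theorem gaub_sympl {X : Fin 3 → ℂ} {β : ℂ → ℝ} (h2 : X 2 ≠ 0) (hβ : ContDiffAt ℝ ∞ β (X 2))
    (hr : 0 < rst R X) (h : ∀ᶠ y in nhds (X 2), y ≠ 0 ∧
      phiA ((ar y : ℂ) + (β y : ℂ) * Complex.I) = y ∧ uph y = ee (β y)) (x y : Fin 3 → ℂ) :
    omega (fderiv ℝ (gaub R β) X x) (fderiv ℝ (gaub R β) X y) = omega x y := by
  have hd : DifferentiableAt ℝ (gaub R β) X := (gaub_contDiffAt hβ hr).differentiableAt (by simp)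
  have p : ∀ i : Fin 3, HasFDerivAt (fun v : Fin 3 → ℂ => v i)
      (ContinuousLinearMap.proj (R := ℝ) (φ := fun _ : Fin 3 => ℂ) i) X := fun i =>
    (ContinuousLinearMap.proj (R := ℝ) (φ := fun _ : Fin 3 => ℂ) i).hasFDerivAt
  have pa : ∀ i : Fin 3, HasFDerivAt (fun v : Fin 3 → ℂ => ar (v i))
      ((arD (X i)).comp (ContinuousLinearMap.proj (R := ℝ) (φ := fun _ : Fin 3 => ℂ) i)) X :=
    fun i => HasFDerivAt.comp (g := ar) (f := fun v : Fin 3 → ℂ => v i) X (ar_hasFDerivAt (X i))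
      (p i)
  have hb0 : HasFDerivAt β (fderiv ℝ β (X 2)) (X 2) :=
    (hβ.differentiableAt (by simp)).hasFDerivAt
  have hb : HasFDerivAt (fun v : Fin 3 → ℂ => -β (v 2))
      (-((fderiv ℝ β (X 2)).comp
        (ContinuousLinearMap.proj (R := ℝ) (φ := fun _ : Fin 3 => ℂ) 2))) X :=
    (HasFDerivAt.comp (g := β) (f := fun v : Fin 3 → ℂ => v 2) X hb0 (p 2)).neg
  have hrst : HasFDerivAt (rst R)
      (-((arD (X 0)).comp (ContinuousLinearMap.proj (R := ℝ) (φ := fun _ : Fin 3 => ℂ) 0)) -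
        ((arD (X 1)).comp (ContinuousLinearMap.proj (R := ℝ) (φ := fun _ : Fin 3 => ℂ) 1)) -
        ((arD (X 2)).comp (ContinuousLinearMap.proj (R := ℝ) (φ := fun _ : Fin 3 => ℂ) 2))) X :=
    (((pa 0).const_sub R).sub (pa 1)).sub (pa 2)
  have g0 := om1_phase (ψ := fun v : Fin 3 → ℂ => -β (v 2)) (h := fun v : Fin 3 → ℂ => v 0)
    hb (p 0) x y
  have g1 := om1_phase (ψ := fun v : Fin 3 → ℂ => -β (v 2)) (h := fun v : Fin 3 → ℂ => v 1)
    hb (p 1) x y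
  have g2 := om1_phiA (a := rst R) (b := fun v : Fin 3 → ℂ => -β (v 2)) hrst hb hr x y
  have key := lift_wd h2 hβ h (x 2) (y 2)
  rw [omega3, omega3, slot_fderiv hd, slot_fderiv hd, slot_fderiv hd, slot_fderiv hd,
    slot_fderiv hd, slot_fderiv hd]
  have e0 : (fun v : Fin 3 → ℂ => gaub R β v 0) = fun v => ee (-β (v 2)) * v 0 := rfl
  have e1 : (fun v : Fin 3 → ℂ => gaub R β v 1) = fun v => ee (-β (v 2)) * v 1 := rfl
  have e2 : (fun v : Fin 3 → ℂ => gaub R β v 2) = fun v =>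
      phiA (((rst R v : ℝ) : ℂ) + ((-β (v 2) : ℝ) : ℂ) * Complex.I) := rfl
  rw [e0, e1, e2, g0, g1, g2, ← key]
  unfold wd
  simp only [ContinuousLinearMap.comp_apply, ContinuousLinearMap.proj_apply, neg_apply,
    sub_apply]
  ring

theorem gau_eventually {X : Fin 3 → ℂ} {β : ℂ → ℝ} (h : ∀ᶠ y in nhds (X 2), y ≠ 0 ∧
    phiA ((ar y : ℂ) + (β y : ℂ) * Complex.I) = y ∧ uph y = ee (β y)) :
    gau R =ᶠ[nhds X] gaub R β := by
  have h0 : Filter.Tendsto (fun v : Fin 3 → ℂ => v 2) (nhds X) (nhds (X 2)) :=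
    (continuous_apply 2).continuousAt
  filter_upwards [h0.eventually h] with v hv
  exact gau_eq hv.2.2

theorem gau_contDiffAt {X : Fin 3 → ℂ} (h2 : X 2 ≠ 0) (hr : 0 < rst R X) :
    ContDiffAt ℝ ∞ (gau R) X := by
  obtain ⟨β, hβ, h⟩ := exists_local_lift h2
  exact (gaub_contDiffAt hβ hr).congr_of_eventuallyEq (gau_eventually h)

theorem gau_sympl {X : Fin 3 → ℂ} (h2 : X 2 ≠ 0) (hr : 0 < rst R X) (x y : Fin 3 → ℂ) :
    omega (fderiv ℝ (gau R) X x) (fderiv ℝ (gau R) X y) = omega x y := by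
  obtain ⟨β, hβ, h⟩ := exists_local_lift h2
  rw [(gau_eventually h).fderiv_eq]
  exact gaub_sympl h2 hβ hr h x y

theorem gau_zero (X : Fin 3 → ℂ) : gau R X 0 = X 0 * (starRingEnd ℂ) (uph (X 2)) := rfl
theorem gau_one (X : Fin 3 → ℂ) : gau R X 1 = X 1 * (starRingEnd ℂ) (uph (X 2)) := rfl
theorem gau_two (X : Fin 3 → ℂ) : gau R X 2 = ((Real.sqrt (rst R X / Real.pi) : ℝ) : ℂ) *
    (starRingEnd ℂ) (uph (X 2)) := rfl

theorem ar_gau_zero {X : Fin 3 → ℂ} (h2 : X 2 ≠ 0) : ar (gau R X 0) = ar (X 0) := by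
  rw [gau_zero, ar_mul_of_norm_one' (conj_uph_norm h2)]

theorem ar_gau_one {X : Fin 3 → ℂ} (h2 : X 2 ≠ 0) : ar (gau R X 1) = ar (X 1) := by
  rw [gau_one, ar_mul_of_norm_one' (conj_uph_norm h2)]

theorem ar_gau_two {X : Fin 3 → ℂ} (h2 : X 2 ≠ 0) (hr : 0 ≤ rst R X) :
    ar (gau R X 2) = rst R X := by
  have hpi := Real.pi_pos
  rw [gau_two, ar_mul_of_norm_one' (conj_uph_norm h2)]
  unfold ar
  rw [Complex.norm_real, Real.norm_of_nonneg (Real.sqrt_nonneg _), Real.sq_sqrt (by positivity)]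
  field_simp

/-- `rst` is positive iff the last slot does not vanish -/
theorem rst_pos_of_ne {X : Fin 3 → ℂ} (h : gau R X 2 ≠ 0) : 0 < rst R X := by
  have hpi := Real.pi_pos
  by_contra h'
  apply h
  rw [gau_two, Real.sqrt_eq_zero'.2 (div_nonpos_of_nonpos_of_nonneg (not_lt.1 h') hpi.le)]
  simp

theorem gau_inj {X X' : Fin 3 → ℂ} (h2 : X 2 ≠ 0) (h2' : X' 2 ≠ 0) (hr : 0 < rst R X)
    (hr' : 0 < rst R X') (h : gau R X = gau R X') : X = X' := by
  have hpi := Real.pi_pos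
  have a0 : ar (X 0) = ar (X' 0) := by rw [← ar_gau_zero (R := R) h2, h, ar_gau_zero h2']
  have a1 : ar (X 1) = ar (X' 1) := by rw [← ar_gau_one (R := R) h2, h, ar_gau_one h2']
  have a2 : rst R X = rst R X' := by
    rw [← ar_gau_two h2 hr.le, h, ar_gau_two h2' hr'.le]
  have a3 : ar (X 2) = ar (X' 2) := by
    unfold rst at a2
    linarith
  have e2 := congrFun h 2
  rw [gau_two, gau_two, a2] at e2
  have hne : ((Real.sqrt (rst R X' / Real.pi) : ℝ) : ℂ) ≠ 0 := by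
    rw [Complex.ofReal_ne_zero]
    exact (Real.sqrt_pos.2 (by positivity)).ne'
  have e3 : (starRingEnd ℂ) (uph (X 2)) = (starRingEnd ℂ) (uph (X' 2)) :=
    mul_left_cancel₀ hne e2
  have e4 : uph (X 2) = uph (X' 2) := (starRingEnd ℂ).injective e3
  have hcne : (starRingEnd ℂ) (uph (X' 2)) ≠ 0 := by
    rw [← norm_ne_zero_iff, conj_uph_norm h2']
    exact one_ne_zero
  have e0 := congrFun h 0
  have e1 := congrFun h 1
  rw [gau_zero, gau_zero, e3] at e0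
  rw [gau_one, gau_one, e3] at e1
  funext i
  fin_cases i
  · exact mul_right_cancel₀ hcne e0
  · exact mul_right_cancel₀ hcne e1
  · exact eq_of_ar_uph h2 h2' a3 e4

end Vale.Agent.P209.H686
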