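import Vale.Agent.P209.H684.Gate2

/-!
# A gate with a general clock

The gate map of `H684.exists_gate`, but the isotopy which moves the disc off the origin is run by an
arbitrary clock `s` (equal to `1` near the gate); for instance `s` may stay equal to `1` on a whole
half line.
-/

namespace Vale.Agent.P209.H686

open Vale.Agent.P209 Vale.Agent.P209.Strong Vale.Agent.P209.H684
open scoped ContDiff

/-- The gate with clock `s`: `S` is the suspended isotopy, `τ` its final map (off the origin on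
`‖z‖ < r`), `φ` the lifted angle of `τ`. -/
structure ClockGate (r δ ε : ℝ) (s : ℝ → ℝ) (τ : ℂ → ℂ) (φ : ℂ → ℝ) (S G : ℂ × ℂ → ℂ × ℂ) :
    Prop where
  tau : Sympl1 τ
  tau_ne : ∀ z, ‖z‖ < r → τ z ≠ 0
  tau_ar : ∀ z, ‖z‖ < r → ar (τ z) ≤ ar z + ε
  phi_smooth : ∀ z, ‖z‖ < r → ContDiffAt ℝ ∞ φ z
  phi_eq : ∀ z, ‖z‖ < r → phiA ((ar (τ z) : ℂ) + (φ z : ℂ) * Complex.I) = τ z
  phi_wd : ∀ z, ‖z‖ < r → ∀ v w,
    wd (fderiv ℝ (fun z => ar (τ z)) z) (fderiv ℝ φ z) v w = om1 v w
  susp : Susp s S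
  S_ar : ∀ x : ℂ × ℂ, ‖x.2‖ < r → ar (S x).2 ≤ ar x.2 + ε
  S_one : ∀ x : ℂ × ℂ, s x.1.re = 1 → S x = (x.1, τ x.2)
  smooth : ∀ x : ℂ × ℂ, ‖x.2‖ < r → ContDiffAt ℝ ∞ G x
  sympl : ∀ x : ℂ × ℂ, ‖x.2‖ < r → ∀ v w,
    om2 (fderiv ℝ G x v) (fderiv ℝ G x w) = om2 v w
  diff : ∀ x : ℂ × ℂ, ‖x.2‖ < r → ar (G x).1 - ar (G x).2 = x.1.re
  sum : ∀ x : ℂ × ℂ, ‖x.2‖ < r → ar (G x).1 + ar (G x).2 ≤ 2 * ar x.2 + |x.1.re| + ε
  inj : ∀ x y : ℂ × ℂ, ‖x.2‖ < r → ‖y.2‖ < r → G x = G y →
    ∃ l : ℤ, y = (x.1 + (l : ℂ) * Complex.I, x.2)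
  plus : ∀ x : ℂ × ℂ, ‖x.2‖ < r → δ ≤ x.1.re →
    G x = (phiA (((ar (S x).2 + x.1.re : ℝ) : ℂ) + (((S x).1.im : ℝ) : ℂ) * Complex.I),
      ee (-(S x).1.im) * (S x).2)
  minus : ∀ x : ℂ × ℂ, ‖x.2‖ < r → x.1.re ≤ -δ →
    G x = (ee (S x).1.im * (S x).2,
      phiA (((ar (S x).2 - x.1.re : ℝ) : ℂ) + ((-(S x).1.im : ℝ) : ℂ) * Complex.I))
  zero : ∀ x : ℂ × ℂ, ‖x.2‖ < r → x.1.re = 0 →
    (G x).1 = ee (2 * x.1.im) * (G x).2 ∧ (G x).2 ≠ 0
  rot : ∀ (x : ℂ × ℂ) (t : ℝ), G (x.1 + (t : ℂ) * Complex.I, x.2) =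
    (ee t * (G x).1, ee (-t) * (G x).2)
  fst_ar : ∀ x : ℂ × ℂ, ‖x.2‖ < r → |x.1.re| < δ →
    ar (τ x.2) ≤ ar (G x).1 ∧ ar (τ x.2) ≤ ar (G x).2

/-- The gate with a general clock `s`, equal to `1` on `|t| ≤ δ`. -/
theorem exists_clockGate (r δ ε : ℝ) (hr : 0 < r) (hδ : 0 < δ) (hε : 0 < ε) (s : ℝ → ℝ)
    (hsm : ContDiff ℝ ∞ s) (hs0 : ∀ t, 0 ≤ s t) (hs1 : ∀ t, s t ≤ 1)
    (hsδ : ∀ t, |t| ≤ δ → s t = 1) :
    ∃ τ φ S G, ClockGate r δ ε s τ φ S G := by
  have hpi := Real.pi_pos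
  set d : ℝ := min δ ε / 4 with hd
  have hmin : 0 < min δ ε := lt_min hδ hε
  have hd0 : 0 < d := by positivity
  have hdδ : 4 * d ≤ δ := by rw [hd]; linarith [min_le_left δ ε]
  have hdε : 4 * d ≤ ε := by rw [hd]; linarith [min_le_right δ ε]
  have hsd : ∀ t, |t| ≤ 2 * d → s t = 1 := fun t ht => hsδ t (ht.trans (by linarith))
  set e1 : ℝ := min 1 (ε / (4 * Real.pi * (2 * r + 1))) with he1
  have he1pos : 0 < e1 := lt_min one_pos (by positivity)
  have he1a : e1 ≤ 1 := min_le_left _ _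
  have he1b : Real.pi * (e1 * (2 * r + 1)) ≤ ε / 4 := by
    have h1 : e1 ≤ ε / (4 * Real.pi * (2 * r + 1)) := min_le_right _ _
    rw [le_div_iff₀ (by positivity)] at h1
    linarith
  obtain ⟨τ, S, hτ, hS, hSn, hS1, hτ0⟩ :=
    exists_susp_off hsm hs0 hs1 r e1 he1pos
  have hτ0' : ∀ z, ‖z‖ < r → τ z ≠ 0 := fun z hz => hτ0 z hz.le
  obtain ⟨φ, hφ1, hφ2, hφ3⟩ := exists_lift hτ hr hτ0'
  -- areas grow by at most `ε / 4`
  have harea : ∀ z z' : ℂ, ‖z‖ < r → ‖z'‖ ≤ ‖z‖ + e1 → ar z' ≤ ar z + ε / 4 := by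
    intro z z' hz hz'
    unfold ar
    have h1 : ‖z'‖ ^ 2 ≤ (‖z‖ + e1) ^ 2 := by gcongr
    have h2 := norm_nonneg z
    have h3 : (‖z‖ + e1) ^ 2 ≤ ‖z‖ ^ 2 + e1 * (2 * r + 1) := by nlinarith
    have h4 : Real.pi * ‖z'‖ ^ 2 ≤ Real.pi * (‖z‖ ^ 2 + e1 * (2 * r + 1)) := by
      gcongr
      exact h1.trans h3
    linarith
  have hareaS : ∀ x : ℂ × ℂ, ‖x.2‖ < r → ar (S x).2 ≤ ar x.2 + ε / 4 := fun x hx =>
    harea _ _ hx (hSn x)
  have hareaτ : ∀ z : ℂ, ‖z‖ < r → ar (τ z) ≤ ar z + ε / 4 := by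
    intro z hz
    have h1 : s (0 : ℂ).re = 1 := hsd _ (by simp [hd0.le])
    have h2 := hS1 (0, z) h1
    have h3 := hareaS (0, z) hz
    rw [h2] at h3
    exact h3
  -- agreement of the formulas
  have hP : ∀ x : ℂ × ℂ, ‖x.2‖ < r → d < x.1.re → x.1.re ≤ 2 * d →
      gMid d τ φ x = gPos S x := by
    intro x hx h1 h2
    have h3 : S x = (x.1, τ x.2) := hS1 x (hsd _ (by
      rw [abs_le]; constructor <;> linarith))
    have h4 : H684.chi d x.1.re = x.1.re := chi_of_ge hd0 h1.le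
    have h5 : deriv (H684.chi d) x.1.re = 1 := chi_deriv_ge hd0 h1
    unfold gMid gPos
    rw [h3, h4, h5]
    refine Prod.ext ?_ ?_
    · simp only
      rw [show x.1.im + (1 - 1) * φ x.2 = x.1.im by ring]
    · simp only
      rw [show 1 * φ x.2 - x.1.im = φ x.2 + -x.1.im by ring,
        show ar (τ x.2) + x.1.re - x.1.re = ar (τ x.2) by ring, phiA_shift, hφ2 _ hx]
  have hN : ∀ x : ℂ × ℂ, ‖x.2‖ < r → x.1.re < -d → -(2 * d) ≤ x.1.re →
      gMid d τ φ x = gNeg S x := by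
    intro x hx h1 h2
    have h3 : S x = (x.1, τ x.2) := hS1 x (hsd _ (by
      rw [abs_le]; constructor <;> linarith))
    have h4 : H684.chi d x.1.re = 0 := chi_of_le hd0 h1.le
    have h5 : deriv (H684.chi d) x.1.re = 0 := chi_deriv_le hd0 h1
    unfold gMid gNeg
    rw [h3, h4, h5]
    refine Prod.ext ?_ ?_
    · simp only
      rw [show x.1.im + (1 - 0) * φ x.2 = φ x.2 + x.1.im by ring,
        show ar (τ x.2) + 0 = ar (τ x.2) by ring, phiA_shift, hφ2 _ hx]
    · simp only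
      rw [show 0 * φ x.2 - x.1.im = -x.1.im by ring,
        show ar (τ x.2) + 0 - x.1.re = ar (τ x.2) - x.1.re by ring]
  set G : ℂ × ℂ → ℂ × ℂ := fun x => if |x.1.re| < 2 * d then gMid d τ φ x else
    if 0 ≤ x.1.re then gPos S x else gNeg S x with hGdef
  have gM : ∀ x : ℂ × ℂ, |x.1.re| < 2 * d → G x = gMid d τ φ x := by
    intro x h; rw [hGdef]; simp only [h, if_true]
  have gP : ∀ x : ℂ × ℂ, ‖x.2‖ < r → d < x.1.re → G x = gPos S x := by
    intro x hx h
    by_cases h1 : |x.1.re| < 2 * d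
    · rw [gM x h1]
      exact hP x hx h ((le_abs_self _).trans h1.le)
    · have h2 : 0 ≤ x.1.re := by linarith
      rw [hGdef]; simp only [h1, h2, if_true, if_false]
  have gN : ∀ x : ℂ × ℂ, ‖x.2‖ < r → x.1.re < -d → G x = gNeg S x := by
    intro x hx h
    by_cases h1 : |x.1.re| < 2 * d
    · rw [gM x h1]
      exact hN x hx h (by linarith [(abs_lt.1 h1).1])
    · have h2 : ¬ 0 ≤ x.1.re := by push Not; linarith
      rw [hGdef]; simp only [h1, h2, if_false]
  have hcase : ∀ x : ℂ × ℂ, |x.1.re| < 2 * d ∨ d < x.1.re ∨ x.1.re < -d := by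
    intro x
    by_cases h1 : |x.1.re| < 2 * d
    · exact Or.inl h1
    · right
      push Not at h1
      rcases le_abs.1 h1 with h2 | h2
      · left; linarith
      · right; linarith
  have hrec : Continuous (fun x : ℂ × ℂ => x.1.re) := Complex.continuous_re.comp continuous_fst
  have oM : ∀ x : ℂ × ℂ, |x.1.re| < 2 * d → G =ᶠ[nhds x] gMid d τ φ := by
    intro x h
    filter_upwards [(isOpen_lt hrec.abs continuous_const).mem_nhds h] with y hy
    exact gM y hy
  have oR : IsOpen {x : ℂ × ℂ | ‖x.2‖ < r} := isOpen_lt continuous_snd.norm continuous_const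
  have oP : ∀ x : ℂ × ℂ, ‖x.2‖ < r → d < x.1.re → G =ᶠ[nhds x] gPos S := by
    intro x hx h
    filter_upwards [oR.mem_nhds hx, (isOpen_lt continuous_const hrec).mem_nhds h] with y h1 h2
    exact gP y h1 h2
  have oN : ∀ x : ℂ × ℂ, ‖x.2‖ < r → x.1.re < -d → G =ᶠ[nhds x] gNeg S := by
    intro x hx h
    filter_upwards [oR.mem_nhds hx, (isOpen_lt hrec continuous_const).mem_nhds h] with y h1 h2
    exact gN y h1 h2
  -- areas of the two slots
  have arM : ∀ x : ℂ × ℂ, ‖x.2‖ < r → ar (gMid d τ φ x).1 = ar (τ x.2) + H684.chi d x.1.re ∧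
      ar (gMid d τ φ x).2 = ar (τ x.2) + H684.chi d x.1.re - x.1.re := by
    intro x hx
    obtain ⟨p1, p2⟩ := gMid_pos hd0 hτ0' hx
    exact ⟨ar_phiA_re_im p1, ar_phiA_re_im p2⟩
  have arP : ∀ x : ℂ × ℂ, 0 < x.1.re → ar (gPos S x).1 = ar (S x).2 + x.1.re ∧
      ar (gPos S x).2 = ar (S x).2 := by
    intro x hx
    have := ar_nonneg (S x).2
    exact ⟨ar_phiA_re_im (by linarith), ar_mul_of_norm_one (ee_norm _)⟩
  have arN : ∀ x : ℂ × ℂ, x.1.re < 0 → ar (gNeg S x).1 = ar (S x).2 ∧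
      ar (gNeg S x).2 = ar (S x).2 - x.1.re := by
    intro x hx
    have := ar_nonneg (S x).2
    exact ⟨ar_mul_of_norm_one (ee_norm _), ar_phiA_re_im (by linarith)⟩
  have hdiff : ∀ x : ℂ × ℂ, ‖x.2‖ < r → ar (G x).1 - ar (G x).2 = x.1.re := by
    intro x hx
    rcases hcase x with h | h | h
    · rw [gM x h, (arM x hx).1, (arM x hx).2]; ring
    · rw [gP x hx h, (arP x (hd0.trans h)).1, (arP x (hd0.trans h)).2]; ring
    · rw [gN x hx h, (arN x (by linarith)).1, (arN x (by linarith)).2]; ring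
  refine ⟨τ, φ, S, G, hτ, hτ0', fun z hz => (hareaτ z hz).trans (by linarith), hφ1, hφ2, hφ3, hS,
    fun x hx => (hareaS x hx).trans (by linarith), hS1, ?_, ?_, hdiff, ?_, ?_, ?_, ?_, ?_, ?_, ?_⟩
  · intro x hx
    rcases hcase x with h | h | h
    · exact (gMid_smooth hd0 hτ hτ0' hφ1 hx).congr_of_eventuallyEq (oM x h)
    · exact (gPos_smooth hS (hd0.trans h)).congr_of_eventuallyEq (oP x hx h)
    · exact (gNeg_smooth hS (by linarith)).congr_of_eventuallyEq (oN x hx h)
  · intro x hx v w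
    rcases hcase x with h | h | h
    · rw [(oM x h).fderiv_eq]; exact gMid_sympl hd0 hτ hτ0' hφ1 hφ3 hx v w
    · rw [(oP x hx h).fderiv_eq]; exact gPos_sympl hS (hd0.trans h) v w
    · rw [(oN x hx h).fderiv_eq]; exact gNeg_sympl hS (by linarith) v w
  · intro x hx
    rcases hcase x with h | h | h
    · rw [gM x h, (arM x hx).1, (arM x hx).2]
      have h1 := hareaτ x.2 hx
      have h2 := chi_le (t := x.1.re) hd0
      rcases le_total 0 x.1.re with h3 | h3
      · rw [max_eq_left h3] at h2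
        rw [abs_of_nonneg h3]
        linarith
      · rw [max_eq_right h3] at h2
        rw [abs_of_nonpos h3]
        linarith
    · rw [gP x hx h, (arP x (hd0.trans h)).1, (arP x (hd0.trans h)).2]
      have h1 := hareaS x hx
      have h2 := le_abs_self x.1.re
      linarith
    · rw [gN x hx h, (arN x (by linarith)).1, (arN x (by linarith)).2]
      have h1 := hareaS x hx
      have h2 := neg_abs_le x.1.re
      linarith
  · intro x y hx hy hxy
    have hre : x.1.re = y.1.re := by rw [← hdiff x hx, ← hdiff y hy, hxy]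
    rcases hcase x with h | h | h
    · have h' : |y.1.re| < 2 * d := by rwa [← hre]
      rw [gM x h, gM y h'] at hxy
      obtain ⟨p1, p2⟩ := gMid_pos hd0 hτ0' hx
      obtain ⟨q1, q2⟩ := gMid_pos hd0 hτ0' hy
      have k1 := congrArg Prod.fst hxy
      have k2 := congrArg Prod.snd hxy
      simp only [gMid] at k1 k2
      obtain ⟨a1, m1, b1⟩ := phiA_re_im_inj p1 q1 k1
      obtain ⟨a2, m2, b2⟩ := phiA_re_im_inj p2 q2 k2
      rw [hre] at a1 b1 b2
      have a3 : ar (τ x.2) = ar (τ y.2) := by linarith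
      have b3 : φ x.2 = φ y.2 + ((m1 + m2 : ℤ) : ℝ) := by push_cast; linarith
      have h5 : τ x.2 = τ y.2 := by
        rw [← hφ2 _ hx, ← hφ2 _ hy, a3, b3, phiA_shift, ee_int, one_mul]
      have h6 : x.2 = y.2 := hτ.inj h5
      refine ⟨-m1, Prod.ext (Complex.ext ?_ ?_) h6.symm⟩
      · simp [hre]
      · rw [h6] at b1
        simp
        linarith
    · have h' : d < y.1.re := by rwa [← hre]
      rw [gP x hx h, gP y hy h'] at hxy
      have k1 := congrArg Prod.fst hxy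
      have k2 := congrArg Prod.snd hxy
      simp only [gPos] at k1 k2
      have n1 := ar_nonneg (S x).2
      have n2 := ar_nonneg (S y).2
      obtain ⟨a1, m1, b1⟩ := phiA_re_im_inj (by linarith) (by linarith) k1
      have h5 : (S x).2 = (S y).2 := by
        have h6 : -(S x).1.im = -(S y).1.im + ((-m1 : ℤ) : ℝ) := by push_cast; linarith
        rw [h6, ee_add_int] at k2
        exact mul_left_cancel₀ (ee_ne_zero _) k2
      exact hS.inj_lift hre b1 h5
    · have h' : y.1.re < -d := by rwa [← hre]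
      rw [gN x hx h, gN y hy h'] at hxy
      have k1 := congrArg Prod.fst hxy
      have k2 := congrArg Prod.snd hxy
      simp only [gNeg] at k1 k2
      have n1 := ar_nonneg (S x).2
      have n2 := ar_nonneg (S y).2
      obtain ⟨a1, m1, b1⟩ := phiA_re_im_inj (by linarith) (by linarith) k2
      have b2 : (S x).1.im - (S y).1.im = ((-m1 : ℤ) : ℝ) := by push_cast; linarith
      have h5 : (S x).2 = (S y).2 := by
        have h6 : (S x).1.im = (S y).1.im + ((-m1 : ℤ) : ℝ) := by linarith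
        rw [h6, ee_add_int] at k1
        exact mul_left_cancel₀ (ee_ne_zero _) k1
      exact hS.inj_lift hre b2 h5
  · intro x hx h
    rw [gP x hx (by linarith)]
    rfl
  · intro x hx h
    rw [gN x hx (by linarith)]
    rfl
  · intro x hx h
    have h1 : |x.1.re| < 2 * d := by rw [h, abs_zero]; linarith
    rw [gM x h1]
    have h2 := (arM x hx).2
    have h3 := (gMid_pos hd0 hτ0' hx).2
    refine ⟨?_, ?_⟩
    · unfold gMid
      simp only
      rw [h, chi_deriv_zero, ← phiA_shift]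
      congr 2
      · push_cast; ring
      · push_cast; ring
    · intro h4
      rw [h4, ar_eq_zero.2 rfl] at h2
      linarith
  · intro x t
    have hre : (x.1 + (t : ℂ) * Complex.I).re = x.1.re := by simp
    have him : (x.1 + (t : ℂ) * Complex.I).im = x.1.im + t := by simp
    have hSx := hS.im x t
    have h1 : gMid d τ φ (x.1 + (t : ℂ) * Complex.I, x.2) =
        (ee t * (gMid d τ φ x).1, ee (-t) * (gMid d τ φ x).2) := by
      unfold gMid
      refine Prod.ext ?_ ?_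
      · simp only [hre, him]
        rw [← phiA_shift]
        congr 3
        ring_nf
      · simp only [hre, him]
        rw [← phiA_shift]
        congr 3
        ring_nf
    have h2 : gPos S (x.1 + (t : ℂ) * Complex.I, x.2) =
        (ee t * (gPos S x).1, ee (-t) * (gPos S x).2) := by
      unfold gPos
      rw [hSx]
      refine Prod.ext ?_ ?_
      · simp only [hre]
        rw [← phiA_shift]
        simp
      · have h3 : ((S x).1 + (t : ℂ) * Complex.I).im = (S x).1.im + t := by simp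
        simp only [h3]
        rw [show -((S x).1.im + t) = -t + -(S x).1.im by ring, ee_add]
        ring
    have h4 : gNeg S (x.1 + (t : ℂ) * Complex.I, x.2) =
        (ee t * (gNeg S x).1, ee (-t) * (gNeg S x).2) := by
      unfold gNeg
      rw [hSx]
      refine Prod.ext ?_ ?_
      · have h3 : ((S x).1 + (t : ℂ) * Complex.I).im = (S x).1.im + t := by simp
        simp only [h3]
        rw [show ((S x).1.im + t) = t + (S x).1.im by ring, ee_add]
        ring
      · simp only [hre]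
        rw [← phiA_shift]
        congr 3
        have h3 : ((S x).1 + (t : ℂ) * Complex.I).im = (S x).1.im + t := by simp
        rw [h3]
        ring_nf
    rw [hGdef]
    simp only [hre]
    split_ifs
    · exact h1
    · exact h2
    · exact h4
  · intro x hx hxd
    have hsx : S x = (x.1, τ x.2) := hS1 x (hsδ _ hxd.le)
    rcases hcase x with h | h | h
    · rw [gM x h, (arM x hx).1, (arM x hx).2]
      obtain ⟨c1, c2⟩ := chi_nonneg_aux (t := x.1.re) hd0
      constructor <;> linarith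
    · rw [gP x hx h, (arP x (hd0.trans h)).1, (arP x (hd0.trans h)).2, hsx]
      constructor
      · simp only; linarith
      · exact le_rfl
    · rw [gN x hx h, (arN x (by linarith)).1, (arN x (by linarith)).2, hsx]
      constructor
      · exact le_rfl
      · simp only; linarith

end Vale.Agent.P209.H686
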