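import Vale.Agent.P209.H686.Gau

/-!
# Row LS: the left chart is smooth, symplectic, periodic and injective
-/

namespace Vale.Agent.P209.H686

open Vale.Agent.P209 H684 H578 H721 H974 H687
open Vale.Agent.P209.Strong hiding chi
open scoped ContDiff

section

variable {R c m η : ℝ} (D : Dat R c m η)

theorem norm_one_lt (hH : Hyp R c m η) {v : Fin 3 → ℂ} (hv : uu v ∈ Vm R c m) : ‖v 1‖ < D.r := by
  obtain ⟨hm, -, -, -, -⟩ := hH
  obtain ⟨-, -, -, h4⟩ := hv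
  have h0 : uu v 0 = ar (v 1) := rfl
  have h1 : uu v 1 = ar (v 2) := rfl
  rw [h0, h1] at h4
  have h2 := ar_nonneg (v 2)
  exact D.hr _ (by linarith)

theorem norm_two_lt (hH : Hyp R c m η) {v : Fin 3 → ℂ} (hv : uu v ∈ Vm R c m) : ‖v 2‖ < D.r := by
  obtain ⟨hm, -, -, -, -⟩ := hH
  obtain ⟨-, -, -, h4⟩ := hv
  have h0 : uu v 0 = ar (v 1) := rfl
  have h1 : uu v 1 = ar (v 2) := rfl
  rw [h0, h1] at h4
  have h2 := ar_nonneg (v 1)
  exact D.hr _ (by linarith)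

/-- the first slot of the corner gate never vanishes -/
theorem corner_ne (hH : Hyp R c m η) {x : ℂ × ℂ} (hx : ‖x.2‖ < D.r) : (D.g2 x).1 ≠ 0 :=
  OG.fst_ne D.og2 (a := m / 40) (by have := hH.1; positivity) D.hs2.one hx

/-- the first slot of the gate of `z_1` never vanishes -/
theorem g1_fst_ne (hH : Hyp R c m η) {x : ℂ × ℂ} (hx : ‖x.2‖ < D.r) : (D.g1 x).1 ≠ 0 :=
  OG.fst_ne D.og1 (a := (R - 2 * c) / 3 + m / 4) (by
    obtain ⟨hm, -, h2, -, -⟩ := hH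
    linarith) D.hs1.one hx

/-- the value of `EL` in the slot `2` never vanishes -/
theorem EL_two_ne (hH : Hyp R c m η) {w : Fin 3 → ℂ} (hw1 : ‖w 1‖ < D.r) (hw2 : ‖w 2‖ < D.r) :
    EL c D.g2 D.g1 w 2 ≠ 0 := by
  rw [EL_two]
  have hV : (ELi D.g2 w).1 ≠ 0 := corner_ne D hH (x := (w 0, w 2)) hw2
  unfold bend
  refine mul_ne_zero ?_ (g1_fst_ne D hH ?_)
  · rw [← norm_ne_zero_iff, uph_norm hV]
    exact one_ne_zero
  · show ‖(starRingEnd ℂ) (uph (ELi D.g2 w).1) * w 1‖ < D.r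
    rw [norm_mul, conj_uph_norm hV, one_mul]
    exact hw1

theorem rst_pos_of_DX {v : Fin 3 → ℂ} (hv : v ∈ D.DX) :
    0 < rst R (EL c D.g2 D.g1 (toK R c v)) := by
  have := hv.2
  unfold rst
  linarith

theorem cL_eq (v : Fin 3 → ℂ) : D.cL v = gau R (EL c D.g2 D.g1 (toK R c v)) := rfl

section

variable (hH : Hyp R c m η) {v : Fin 3 → ℂ} (hv : uu v ∈ Vm R c m)

include hH hv

theorem toK_norm_one : ‖toK R c v 1‖ < D.r := by
  rw [norm_toK_one]; exact norm_one_lt D hH hv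

theorem toK_norm_two : ‖toK R c v 2‖ < D.r := norm_two_lt (v := v) D hH hv

theorem toK_corner_ne : (D.g2 (toK R c v 0, toK R c v 2)).1 ≠ 0 :=
  corner_ne D hH (x := (toK R c v 0, toK R c v 2)) (toK_norm_two D hH hv)

theorem toK_two_ne : EL c D.g2 D.g1 (toK R c v) 2 ≠ 0 :=
  EL_two_ne D hH (toK_norm_one D hH hv) (toK_norm_two D hH hv)

/-- the domain `DX` is given by `cL v 2 ≠ 0` -/
theorem mem_DX_of_ne (h : D.cL v 2 ≠ 0) : v ∈ D.DX := by
  refine ⟨hv, ?_⟩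
  have := rst_pos_of_ne h
  unfold rst at this
  linarith

end

theorem cL_contDiffAt (hH : Hyp R c m η) {v : Fin 3 → ℂ} (hv : v ∈ D.DX) :
    ContDiffAt ℝ ∞ D.cL v := by
  have h1 : ContDiffAt ℝ ∞ (EL c D.g2 D.g1) (toK R c v) :=
    EL_contDiffAt D.og1 D.og2 (toK_norm_one D hH hv.1) (toK_norm_two D hH hv.1)
      (toK_corner_ne D hH hv.1)
  have h2 : ContDiffAt ℝ ∞ (fun v => EL c D.g2 D.g1 (toK R c v)) v :=
    h1.comp v toK_contDiff.contDiffAt
  exact ContDiffAt.comp (g := gau R) v (gau_contDiffAt (toK_two_ne D hH hv.1) (rst_pos_of_DX D hv))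
    h2

theorem cL_sympl (hH : Hyp R c m η) {v : Fin 3 → ℂ} (hv : v ∈ D.DX) (x y : Fin 3 → ℂ) :
    omega (fderiv ℝ D.cL v x) (fderiv ℝ D.cL v y) = omega x y := by
  have h1 : DifferentiableAt ℝ (EL c D.g2 D.g1) (toK R c v) :=
    (EL_contDiffAt D.og1 D.og2 (toK_norm_one D hH hv.1) (toK_norm_two D hH hv.1)
      (toK_corner_ne D hH hv.1)).differentiableAt (by simp)
  have h2 : DifferentiableAt ℝ (toK R c) v := toK_contDiff.contDiffAt.differentiableAt (by simp)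
  have h3 : DifferentiableAt ℝ (gau R) (EL c D.g2 D.g1 (toK R c v)) :=
    (gau_contDiffAt (toK_two_ne D hH hv.1) (rst_pos_of_DX D hv)).differentiableAt (by simp)
  have h4 : HasFDerivAt (fun v => EL c D.g2 D.g1 (toK R c v))
      ((fderiv ℝ (EL c D.g2 D.g1) (toK R c v)).comp (fderiv ℝ (toK R c) v)) v :=
    HasFDerivAt.comp (g := EL c D.g2 D.g1) (f := toK R c) v h1.hasFDerivAt h2.hasFDerivAt
  have h5 : HasFDerivAt D.cL ((fderiv ℝ (gau R) (EL c D.g2 D.g1 (toK R c v))).comp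
      ((fderiv ℝ (EL c D.g2 D.g1) (toK R c v)).comp (fderiv ℝ (toK R c) v))) v :=
    HasFDerivAt.comp (g := gau R) (f := fun v => EL c D.g2 D.g1 (toK R c v)) v
      h3.hasFDerivAt h4
  rw [h5.fderiv]
  simp only [ContinuousLinearMap.comp_apply]
  rw [gau_sympl (toK_two_ne D hH hv.1) (rst_pos_of_DX D hv),
    EL_sympl D.og1 D.og2 (toK_norm_one D hH hv.1) (toK_norm_two D hH hv.1)
      (toK_corner_ne D hH hv.1), toK_sympl]

theorem cL_sft (v : Fin 3 → ℂ) (l : ℤ) : D.cL (sft l v) = D.cL v := by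
  rw [cL_eq, cL_eq, toK_sft, EL_sft D.og2]

theorem cL_inj (hH : Hyp R c m η) {v v' : Fin 3 → ℂ} (hv : v ∈ D.DX) (hv' : v' ∈ D.DX)
    (h : D.cL v = D.cL v') : ∃ l : ℤ, v' = sft l v := by
  rw [cL_eq, cL_eq] at h
  have h1 := gau_inj (toK_two_ne D hH hv.1) (toK_two_ne D hH hv'.1) (rst_pos_of_DX D hv)
    (rst_pos_of_DX D hv') h
  obtain ⟨l, hl⟩ := EL_inj D.og1 D.og2 (toK_norm_one D hH hv.1) (toK_norm_two D hH hv.1)
    (toK_corner_ne D hH hv.1) (toK_norm_one D hH hv'.1) (toK_norm_two D hH hv'.1)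
    (toK_corner_ne D hH hv'.1) h1
  exact ⟨-l, toK_inj hl⟩

/-- injectivity of the left chart, where the last slot does not vanish -/
theorem cL_inj' (hH : Hyp R c m η) {v v' : Fin 3 → ℂ} (hv : uu v ∈ Vm R c m)
    (hv' : uu v' ∈ Vm R c m) (hne : D.cL v 2 ≠ 0) (h : D.cL v = D.cL v') :
    ∃ l : ℤ, v' = sft l v :=
  cL_inj D hH (mem_DX_of_ne D hH hv hne) (mem_DX_of_ne D hH hv' (by rw [← h]; exact hne)) h

end

/-- Row LS. -/
theorem rowLS : RowLS := fun R c m η D hH =>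
  ⟨fun _ hv => cL_contDiffAt D hH hv, fun _ hv x y => cL_sympl D hH hv x y,
    fun v _ l => cL_sft D v l, fun _ hv _ hv' h => cL_inj D hH hv hv' h⟩

end Vale.Agent.P209.H686
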