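import Vale.Agent.P209.H578.Defs

set_option linter.all false

/-!
# P209, the SHAKE lemma

`shakeLemma_of`: the shaking lemma `H578.ShakeLemma` from the smooth length function
(`H578.DContLemma`) and the suspension of the disc lemma (`SuspLemma` below).
-/

namespace Vale.Agent.P209.H686

open scoped ContDiff
open Function
open Vale.Agent.P209.H578

variable {d : ℕ}

/-- (SUSP) the suspension of the disc family of (DL) by a smooth time function `D`. -/
def SuspLemma : Prop := ∀ (d : ℕ) (a : Fin d) (A ε : ℝ), 0 < A → 0 < ε →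
  ∀ D : ℝ × (Fin d → ℝ) → ℝ, ContDiff ℝ ∞ D → (∀ p u y, D (p, Function.update u a y) = D (p, u)) →
  ∃ S : (Fin (d + 1) → ℂ) → (Fin (d + 1) → ℂ), Mov {w | w a.succ ∈ dsc A} S ∧
    ∀ w : Fin (d + 1) → ℂ, w a.succ ∈ dsc A →
      (∀ b, b ≠ a → uu (S w) b = uu w b) ∧
      (D ((w 0).re, uu w) ≤ 0 → S w = w) ∧
      max (D ((w 0).re, uu w)) 0 - ε ≤ uu (S w) a ∧
      uu (S w) a ≤ uu w a + max (D ((w 0).re, uu w)) 0 + ε

theorem uu_nonneg (w : Fin (d + 1) → ℂ) (b : Fin d) : 0 ≤ uu w b := by
  unfold uu; positivity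

theorem continuous_uu : Continuous (uu : (Fin (d + 1) → ℂ) → Fin d → ℝ) := by
  unfold uu; fun_prop

theorem isOpen_line {Om : Set (Fin d → ℝ)} {f : (Fin d → ℝ) → ℝ}
    (hopen : ∃ O : Set (Fin d → ℝ), IsOpen O ∧ Om = O ∩ {u | ∀ b, 0 ≤ u b})
    (hfc : ContinuousOn f Om) (φ : (Fin (d + 1) → ℂ) → Fin d → ℝ) (hφ : Continuous φ)
    (hφ0 : ∀ w b, 0 ≤ φ w b) (c : (Fin (d + 1) → ℂ) → ℝ) (hc : Continuous c) :
    IsOpen {w | φ w ∈ Om ∧ c w < f (φ w)} := by
  obtain ⟨O, hO, rfl⟩ := hopen
  have h1 : IsOpen {w | φ w ∈ O ∩ {u | ∀ b, 0 ≤ u b}} := by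
    have : {w | φ w ∈ O ∩ {u | ∀ b, 0 ≤ u b}} = φ ⁻¹' O := by
      ext w; simp [hφ0 w]
    rw [this]; exact hO.preimage hφ
  have h2 : ContinuousOn (fun w => f (φ w) - c w) {w | φ w ∈ O ∩ {u | ∀ b, 0 ≤ u b}} := by
    apply ContinuousOn.sub
    · exact hfc.comp hφ.continuousOn (fun w hw => hw)
    · exact hc.continuousOn
  have h3 := h2.isOpen_inter_preimage h1 isOpen_Ioi (t := Set.Ioi (0 : ℝ))
  have h4 : {w | φ w ∈ O ∩ {u | ∀ b, 0 ≤ u b} ∧ c w < f (φ w)} =
      {w | φ w ∈ O ∩ {u | ∀ b, 0 ≤ u b}} ∩ (fun w => f (φ w) - c w) ⁻¹' Set.Ioi 0 := by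
    ext w
    simp only [Set.mem_setOf_eq, Set.mem_inter_iff, Set.mem_preimage, Set.mem_Ioi, sub_pos]
  rw [h4]; exact h3

/-- The open part `{uu w ∈ Om, f (uu w) < Re w_0}`. -/
def up (Om : Set (Fin d → ℝ)) (f : (Fin d → ℝ) → ℝ) : Set (Fin (d + 1) → ℂ) :=
  {w | uu w ∈ Om ∧ f (uu w) < (w 0).re}

theorem isOpen_up {Om : Set (Fin d → ℝ)} {f : (Fin d → ℝ) → ℝ}
    (hopen : ∃ O : Set (Fin d → ℝ), IsOpen O ∧ Om = O ∩ {u | ∀ b, 0 ≤ u b})
    (hfc : ContinuousOn f Om) : IsOpen (up Om f) := by
  have h := isOpen_line (d := d) (f := fun u => - f u) hopen hfc.neg uu continuous_uu uu_nonneg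
    (fun w => - (w 0).re) (by fun_prop)
  have h2 : up Om f = {w | uu w ∈ Om ∧ - (w 0).re < - f (uu w)} := by
    ext w
    simp only [up, Set.mem_setOf_eq, neg_lt_neg_iff]
  rw [h2]; exact h

/-- Points of `up Om f` to the left of the superlevel interval in direction `a`. -/
def lft (Om : Set (Fin d → ℝ)) (f : (Fin d → ℝ) → ℝ) (a : Fin d) : Set (Fin (d + 1) → ℂ) :=
  {w | ∃ x : ℝ, uu w a < x ∧ update (uu w) a x ∈ Om ∧ (w 0).re < f (update (uu w) a x)}

/-- Points to the right of the superlevel interval. -/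
def rgt (Om : Set (Fin d → ℝ)) (f : (Fin d → ℝ) → ℝ) (a : Fin d) : Set (Fin (d + 1) → ℂ) :=
  {w | ∃ x : ℝ, 0 ≤ x ∧ x < uu w a ∧ update (uu w) a x ∈ Om ∧ (w 0).re < f (update (uu w) a x)}

theorem continuous_update_uu (a : Fin d) (x : ℝ) :
    Continuous (fun w : Fin (d + 1) → ℂ => update (uu w) a x) :=
  continuous_uu.update a continuous_const

theorem update_uu_nonneg (a : Fin d) {x : ℝ} (hx : 0 ≤ x) (w : Fin (d + 1) → ℂ) (b : Fin d) :
    0 ≤ update (uu w) a x b := by
  by_cases hb : b = a
  · subst hb; simpa using hx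
  · rw [update_of_ne hb]; exact uu_nonneg w b

theorem isOpen_lft {Om : Set (Fin d → ℝ)} {f : (Fin d → ℝ) → ℝ} {a : Fin d}
    (hopen : ∃ O : Set (Fin d → ℝ), IsOpen O ∧ Om = O ∩ {u | ∀ b, 0 ≤ u b})
    (hfc : ContinuousOn f Om) : IsOpen (lft Om f a) := by
  have : lft Om f a = ⋃ x : {x : ℝ // 0 ≤ x}, {w | uu w a < (x : ℝ)} ∩
      {w | update (uu w) a (x : ℝ) ∈ Om ∧ (w 0).re < f (update (uu w) a (x : ℝ))} := by
    ext w
    simp only [lft, Set.mem_setOf_eq, Set.mem_iUnion, Set.mem_inter_iff, Subtype.exists,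
      exists_prop]
    constructor
    · rintro ⟨x, h1, h2, h3⟩
      exact ⟨x, (uu_nonneg w a).trans h1.le, h1, h2, h3⟩
    · rintro ⟨x, -, h1, h2, h3⟩
      exact ⟨x, h1, h2, h3⟩
  rw [this]
  refine isOpen_iUnion fun x => IsOpen.inter ?_ ?_
  · exact isOpen_lt ((continuous_apply a).comp continuous_uu) continuous_const
  · exact isOpen_line hopen hfc (fun w => update (uu w) a (x : ℝ)) (continuous_update_uu a x)
      (fun w b => update_uu_nonneg a x.2 w b) (fun w => (w 0).re) (by fun_prop)

theorem isOpen_rgt {Om : Set (Fin d → ℝ)} {f : (Fin d → ℝ) → ℝ} {a : Fin d}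
    (hopen : ∃ O : Set (Fin d → ℝ), IsOpen O ∧ Om = O ∩ {u | ∀ b, 0 ≤ u b})
    (hfc : ContinuousOn f Om) : IsOpen (rgt Om f a) := by
  have : rgt Om f a = ⋃ x : {x : ℝ // 0 ≤ x}, {w | (x : ℝ) < uu w a} ∩
      {w | update (uu w) a (x : ℝ) ∈ Om ∧ (w 0).re < f (update (uu w) a (x : ℝ))} := by
    ext w
    simp only [rgt, Set.mem_setOf_eq, Set.mem_iUnion, Set.mem_inter_iff, Subtype.exists,
      exists_prop]
  rw [this]
  refine isOpen_iUnion fun x => IsOpen.inter ?_ ?_
  · exact isOpen_lt continuous_const ((continuous_apply a).comp continuous_uu)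
  · exact isOpen_line hopen hfc (fun w => update (uu w) a (x : ℝ)) (continuous_update_uu a x)
      (fun w b => update_uu_nonneg a x.2 w b) (fun w => (w 0).re) (by fun_prop)

/-- concavity on an `a`-line: the superlevel set is an interval. -/
theorem line_between {Om : Set (Fin d → ℝ)} {f : (Fin d → ℝ) → ℝ} {a : Fin d}
    (hf : ConcaveOn ℝ Om f) {u : Fin d → ℝ} {x y z c : ℝ} (hxy : x ≤ y) (hyz : y ≤ z)
    (hx : update u a x ∈ Om) (hz : update u a z ∈ Om)
    (hfx : c < f (update u a x)) (hfz : c < f (update u a z)) :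
    update u a y ∈ Om ∧ c < f (update u a y) := by
  rcases eq_or_lt_of_le (hxy.trans hyz) with h | h
  · have : y = x := le_antisymm (by linarith) hxy
    subst this; exact ⟨hx, hfx⟩
  · have h1 : update u a y = ((z - y) / (z - x)) • update u a x + ((y - x) / (z - x)) • update u a z := by
      have hne : z - x ≠ 0 := by linarith
      funext b
      by_cases hb : b = a
      · subst hb
        simp only [update_self, Pi.add_apply, Pi.smul_apply, smul_eq_mul]
        field_simp
        ring
      · simp only [update_of_ne hb, Pi.add_apply, Pi.smul_apply, smul_eq_mul]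
        field_simp
        ring
    have ha : 0 ≤ (z - y) / (z - x) := div_nonneg (by linarith) (by linarith)
    have hb : 0 ≤ (y - x) / (z - x) := div_nonneg (by linarith) (by linarith)
    have hab : (z - y) / (z - x) + (y - x) / (z - x) = 1 := by
      have hne : z - x ≠ 0 := by linarith
      field_simp
      ring
    refine ⟨?_, ?_⟩
    · rw [h1]; exact hf.1 hx hz ha hb hab
    · rw [h1]
      have h2 := hf.2 hx hz ha hb hab
      refine lt_of_lt_of_le ?_ h2
      simp only [smul_eq_mul]
      have h3 : c = (z - y) / (z - x) * c + (y - x) / (z - x) * c := by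
        rw [← add_mul, hab, one_mul]
      rcases eq_or_lt_of_le ha with h0 | h0
      · have hb' : (y - x) / (z - x) = 1 := by rw [← h0] at hab; linarith
        rw [← h0, hb']; linarith
      · nlinarith [mul_lt_mul_of_pos_left hfx h0, mul_le_mul_of_nonneg_left hfz.le hb]

/-- two points with the same coordinates off `a`: -/
theorem update_eq_of {u v : Fin d → ℝ} {a : Fin d} (h : ∀ b, b ≠ a → v b = u b) (x : ℝ) :
    update v a x = update u a x := by
  funext b
  by_cases hb : b = a
  · subst hb; simp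
  · rw [update_of_ne hb, update_of_ne hb, h b hb]

/-- **(SHAKE)** from (DCONT) and (SUSP). -/
theorem shakeLemma_of (hDC : DContLemma) (hSU : SuspLemma) : ShakeLemma := by
  classical
  intro d Om a f f' g hOm hf hff' hg hfg K hK hKO ε hε
  obtain ⟨B, hB⟩ := hOm.bdd
  have hcont : Continuous (fun w : Fin (d + 1) → ℂ => ((w 0).re, uu w)) :=
    (Complex.continuous_re.comp (continuous_apply 0)).prodMk continuous_uu
  obtain ⟨e, he, D, hD, hDa, N, hN, hKN, hNa, hprop⟩ := hDC d Om a f hOm hf
    ((fun w : Fin (d + 1) → ℂ => ((w 0).re, uu w)) '' K) (hK.image hcont)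
    (by rintro q ⟨w, hw, rfl⟩; exact (hKO w hw).1) (ε / 2) (by linarith)
  obtain ⟨S, hS, hSp⟩ := hSU d a (max B 0 + 1) e (by positivity) he D hD hDa
  set U := up Om f with hUdef
  set V : Set (Fin (d + 1) → ℂ) := U ∩ {w | ((w 0).re, uu w) ∈ N} with hVdef
  have hUo : IsOpen U := isOpen_up hOm.relopen hf.cont
  have hVo : IsOpen V := hUo.inter (hN.preimage hcont)
  have hlo : IsOpen (lft Om f a) := isOpen_lft hOm.relopen hf.cont
  have hro : IsOpen (rgt Om f a) := isOpen_rgt hOm.relopen hf.cont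
  have hUV : ∀ w ∈ U, w a.succ ∈ dsc (max B 0 + 1) := by
    intro w hw
    have := hB _ hw.1 a
    simp only [uu] at this
    simp only [dsc, Set.mem_setOf_eq]
    have h2 := le_max_left B 0
    linarith
  -- lowering a coordinate stays in `Om`
  have hline : ∀ (u : Fin d → ℝ) (x y : ℝ), 0 ≤ x → x ≤ y → update u a y ∈ Om →
      update u a x ∈ Om := by
    intro u x y hx hxy hy
    refine hOm.down _ hy _ ?_ ?_
    · intro b
      by_cases hb : b = a
      · subst hb; simpa using hx
      · rw [update_of_ne hb]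
        have := hOm.nonneg _ hy b
        rwa [update_of_ne hb] at this
    · intro b
      by_cases hb : b = a
      · subst hb; simpa using hxy
      · rw [update_of_ne hb, update_of_ne hb]
  -- left and right are disjoint in `U`
  have hdisj : ∀ w ∈ U, w ∈ lft Om f a → w ∉ rgt Om f a := by
    rintro w hw ⟨x, hx, hx1, hx2⟩ ⟨y, hy0, hy, hy1, hy2⟩
    have h := line_between (a := a) hf.concave hy.le hx.le hy1 hx1 hy2 hx2
    rw [update_eq_self] at h
    exact lt_asymm hw.2 h.2
  have huuS : ∀ w ∈ U, ∀ b, b ≠ a → uu (S w) b = uu w b := fun w hw => (hSp w (hUV w hw)).1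
  have hupS : ∀ w ∈ U, ∀ x, update (uu (S w)) a x = update (uu w) a x := fun w hw x =>
    update_eq_of (huuS w hw) x
  have hS0 : ∀ w ∈ U, (S w 0).re = (w 0).re := fun w hw => hS.re0 w (hUV w hw)
  -- key: the image of the left part stays to the left of some point of the superlevel set
  have hkey : ∀ w ∈ V, w ∈ lft Om f a → ∃ y : ℝ, update (uu w) a y ∈ Om ∧
      (w 0).re < f (update (uu w) a y) ∧ uu (S w) a < y := by
    intro w hw hl
    have hp := hSp w (hUV w hw.1)
    rcases le_or_gt (D ((w 0).re, uu w)) 0 with h | h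
    · obtain ⟨x, hx1, hx2, hx3⟩ := hl
      refine ⟨x, hx2, hx3, ?_⟩
      rw [hp.2.1 h]
      exact hx1
    · obtain ⟨y, hy1, hy2, hy3⟩ := (hprop (w 0).re (uu w) hw.2 hw.1.1 hw.1.2).1 hl h
      refine ⟨y, hy2, hy3, ?_⟩
      have h2 := hp.2.2.2
      rw [max_eq_left h.le] at h2
      linarith
  -- local form
  have hloc : ∀ w ∈ V, (fun w => if w ∈ lft Om f a then S w else w) =ᶠ[nhds w] S ∨
      (fun w => if w ∈ lft Om f a then S w else w) =ᶠ[nhds w] fun w => w := by
    intro w hw
    by_cases hl : w ∈ lft Om f a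
    · left
      filter_upwards [hlo.mem_nhds hl] with w' hw'
      rw [if_pos hw']
    · right
      by_cases hr : w ∈ rgt Om f a
      · filter_upwards [hUo.mem_nhds hw.1, hro.mem_nhds hr] with w' hw' hr'
        rw [if_neg]
        exact fun h => hdisj w' hw' h hr'
      · -- the superlevel set is empty
        have hempty : ∀ x : ℝ, update (uu w) a x ∈ Om →
            f (update (uu w) a x) ≤ (w 0).re := by
          intro x hxO
          have hx : 0 ≤ x := by
            have := hOm.nonneg _ hxO a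
            rwa [update_self] at this
          by_contra hxf
          rw [not_le] at hxf
          rcases lt_trichotomy x (uu w a) with h | h | h
          · exact hr ⟨x, hx, h, hxO, hxf⟩
          · subst h
            rw [update_eq_self] at hxf
            exact lt_asymm hw.1.2 hxf
          · exact hl ⟨x, h, hxO, hxf⟩
        have hDt0 : D ((w 0).re, uu w) < 0 :=
          (hprop (w 0).re (uu w) hw.2 hw.1.1 hw.1.2).2.2 hempty
        have hev1 : ∀ᶠ w' in nhds w, D ((w' 0).re, uu w') < 0 :=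
          (hD.continuous.comp hcont).continuousAt.eventually_lt continuousAt_const hDt0
        filter_upwards [hev1, hUo.mem_nhds hw.1] with w' hw' hw'V
        split_ifs with hl'
        · exact (hSp w' (hUV w' hw'V)).2.1 hw'.le
        · rfl
  refine ⟨V, fun w => if w ∈ lft Om f a then S w else w, ⟨hVo, ?_, ?_, ?_, ?_⟩, ?_, ?_⟩
  · intro w hw
    rcases hloc w hw with h | h
    · exact ((hS.smooth.contDiffAt (hS.isOpen.mem_nhds (hUV w hw.1))).congr_of_eventuallyEq
        h).contDiffWithinAt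
    · exact (contDiffAt_id.congr_of_eventuallyEq h).contDiffWithinAt
  · intro w hw v v'
    rcases hloc w hw with h | h
    · rw [h.fderiv_eq]
      exact hS.sympl w (hUV w hw.1) v v'
    · rw [h.fderiv_eq]
      have : fderiv ℝ (fun w : Fin (d + 1) → ℂ => w) w = ContinuousLinearMap.id ℝ _ :=
        fderiv_id
      rw [this]
      rfl
  · intro w hw
    split_ifs with hl
    · exact hS0 w hw.1
    · rfl
  · -- fibres
    intro w hw w' hw' hp hsh
    have huu : ∀ v v' : Fin (d + 1) → ℂ, (∀ a : Fin d, v a.succ = v' a.succ) → uu v = uu v' := by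
      intro v v' h; funext b; simp only [uu, h b]
    by_cases hl : w ∈ lft Om f a
    · by_cases hl' : w' ∈ lft Om f a
      · rw [if_pos hl, if_pos hl'] at *
        exact hS.fib w (hUV w hw.1) w' (hUV w' hw'.1) hp hsh
      · exfalso
        rw [if_pos hl, if_neg hl'] at hsh
        have h1 := huu _ _ hsh
        obtain ⟨y, hy1, hy2, hy3⟩ := hkey w hw hl
        apply hl'
        refine ⟨y, ?_, ?_, ?_⟩
        · rw [← h1]; exact hy3
        · rw [← h1, hupS w hw.1]; exact hy1
        · rw [← h1, hupS w hw.1, ← hp]; exact hy2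
    · by_cases hl' : w' ∈ lft Om f a
      · exfalso
        rw [if_neg hl, if_pos hl'] at hsh
        have h1 := huu _ _ hsh
        obtain ⟨y, hy1, hy2, hy3⟩ := hkey w' hw' hl'
        apply hl
        refine ⟨y, ?_, ?_, ?_⟩
        · rw [h1]; exact hy3
        · rw [h1, hupS w' hw'.1]; exact hy1
        · rw [h1, hupS w' hw'.1, hp]; exact hy2
      · rw [if_neg hl, if_neg hl'] at *
        exact ⟨hsh, rfl⟩
  · intro w hw
    exact ⟨hKO w hw, hKN ⟨w, hw, rfl⟩⟩
  · intro w hw
    simp only
    have hmem : uu (if w ∈ lft Om f a then S w else w) ∈ Om := by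
      split_ifs with hl
      · obtain ⟨y, hy1, hy2, hy3⟩ := hkey w hw hl
        have h1 : update (uu w) a (uu (S w) a) ∈ Om := hline _ _ _ (uu_nonneg _ _) hy3.le hy1
        rwa [← hupS w hw.1, update_eq_self] at h1
      · exact hw.1.1
    refine ⟨hmem, ?_, ?_⟩
    · -- range
      have hle : f' (uu (if w ∈ lft Om f a then S w else w)) ≤ (w 0).re + ε / 2 := by
        apply hff' _ hmem
        intro x hx hxO
        by_cases hl : w ∈ lft Om f a
        · rw [if_pos hl] at hxO ⊢
          rw [hupS w hw.1] at hxO ⊢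
          rw [hupS w hw.1]
          exact (hprop (w 0).re (uu w) hw.2 hw.1.1 hw.1.2).2.1 hl x (uu (S w) a) hx
            (uu_nonneg _ _) (hSp w (hUV w hw.1)).2.2.1 hxO
        · rw [if_neg hl] at hxO ⊢
          by_contra hcon
          rw [not_le, lt_min_iff] at hcon
          obtain ⟨hc1, hc2⟩ := hcon
          rcases eq_or_lt_of_le hx with h | h
          · subst h
            rw [zero_add, update_eq_self] at hc2
            linarith [hw.1.2]
          · apply hl
            exact ⟨x + uu w a, by linarith, hxO, by linarith⟩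
      linarith
    · intro hpg
      split_ifs with hl
      · obtain ⟨y, hy1, hy2, hy3⟩ := hkey w hw hl
        have h1 : update (uu w) a (uu (S w) a) ∈ Om := hline _ _ _ (uu_nonneg _ _) hy3.le hy1
        have h2 := hg (update (uu w) a (uu (S w) a)) h1 (y - uu (S w) a) (by linarith) (by
          rw [update_idem, update_self]
          have : uu (S w) a + (y - uu (S w) a) = y := by ring
          rw [this]; exact hy1)
        rw [update_idem, update_self] at h2
        have h3 : uu (S w) a + (y - uu (S w) a) = y := by ring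
        rw [h3, ← hupS w hw.1 (uu (S w) a), update_eq_self] at h2
        linarith [hfg _ hy1]
      · exact hpg

end Vale.Agent.P209.H686
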