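import Vale.Agent.P209.H687.Defs

/-!
# The left half of the model map for `n = 3`: the bend

`bend G c (V, z)`: the gate `G` applied with time `l = ar V - c + ar z` in the frame of `V`.
-/

namespace Vale.Agent.P209.H686

open Vale.Agent.P209 Vale.Agent.P209.Strong Vale.Agent.P209.H684 Vale.Agent.P209.H687
open scoped ContDiff

section Basics

theorem uph_def (z : ℂ) : uph z = ((‖z‖⁻¹ : ℝ) : ℂ) * z := mul_comm _ _

theorem uph_norm {z : ℂ} (hz : z ≠ 0) : ‖uph z‖ = 1 := by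
  rw [uph_def, norm_mul, Complex.norm_real, norm_inv, norm_norm]
  exact inv_mul_cancel₀ (norm_ne_zero_iff.2 hz)

theorem conj_uph_norm {z : ℂ} (hz : z ≠ 0) : ‖(starRingEnd ℂ) (uph z)‖ = 1 := by
  rw [Complex.norm_conj, uph_norm hz]

theorem uph_mul_conj {z : ℂ} (hz : z ≠ 0) : uph z * (starRingEnd ℂ) (uph z) = 1 := by
  rw [Complex.mul_conj, Complex.normSq_eq_norm_sq, uph_norm hz]
  simp

theorem conj_mul_uph {z : ℂ} (hz : z ≠ 0) : (starRingEnd ℂ) (uph z) * uph z = 1 := by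
  rw [mul_comm, uph_mul_conj hz]

theorem uph_contDiffAt {z : ℂ} (hz : z ≠ 0) : ContDiffAt ℝ ∞ uph z := by
  have h1 : ContDiffAt ℝ ∞ (fun z : ℂ => ‖z‖⁻¹) z :=
    (contDiffAt_norm ℝ hz).inv (norm_ne_zero_iff.2 hz)
  exact contDiffAt_id.mul (Complex.ofRealCLM.contDiff.contDiffAt.comp z h1)

theorem conj_ee (t : ℝ) : (starRingEnd ℂ) (ee t) = ee (-t) := by
  unfold ee
  rw [← Complex.exp_conj]
  congr 1
  rw [map_mul, Complex.conj_ofReal, Complex.conj_I]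
  push_cast
  ring

theorem uph_phiA {a b : ℝ} (ha : 0 < a) :
    uph (phiA ((a : ℂ) + (b : ℂ) * Complex.I)) = ee b := by
  have hpi := Real.pi_pos
  have h0 : 0 < Real.sqrt (a / Real.pi) := Real.sqrt_pos.2 (by positivity)
  rw [uph_def]
  rw [phiA_polar, norm_mul, ee_norm, mul_one, Complex.norm_real, Real.norm_of_nonneg h0.le,
    ← mul_assoc, ← Complex.ofReal_mul, inv_mul_cancel₀ h0.ne']
  simp

theorem uph_ee (t : ℝ) : uph (ee t) = ee t := by
  rw [uph_def]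
  rw [ee_norm]
  simp

theorem uph_mul_ee (t : ℝ) (z : ℂ) : uph (ee t * z) = ee t * uph z := by
  rw [uph_def, uph_def, norm_mul, ee_norm, one_mul]
  ring

/-- polar form -/
theorem polar {z : ℂ} (hz : z ≠ 0) : z = ((Real.sqrt (ar z / Real.pi) : ℝ) : ℂ) * uph z := by
  have hpi := Real.pi_pos
  have h1 : ar z / Real.pi = ‖z‖ ^ 2 := by unfold ar; field_simp
  rw [h1, Real.sqrt_sq (norm_nonneg z)]
  rw [uph_def]
  rw [← mul_assoc, ← Complex.ofReal_mul, mul_inv_cancel₀ (norm_ne_zero_iff.2 hz)]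
  simp

theorem eq_of_ar_uph {z z' : ℂ} (hz : z ≠ 0) (hz' : z' ≠ 0) (h : ar z = ar z')
    (h' : uph z = uph z') : z = z' := by
  rw [polar hz, polar hz', h, h']

theorem exists_ee_uph {V : ℂ} (hV : V ≠ 0) : ∃ t : ℝ, uph V = ee t := by
  have hpi := Real.pi_pos
  refine ⟨Complex.arg (uph V) / (2 * Real.pi), ?_⟩
  have h1 := Complex.norm_mul_exp_arg_mul_I (uph V)
  rw [uph_norm hV, Complex.ofReal_one, one_mul] at h1
  unfold ee
  have h2 : 2 * Real.pi * (Complex.arg (uph V) / (2 * Real.pi)) = Complex.arg (uph V) := by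
    field_simp
  rw [h2, h1]

theorem norm_eq_sqrt (z : ℂ) : Real.sqrt (ar z / Real.pi) = ‖z‖ := by
  have hpi := Real.pi_pos
  have h1 : ar z / Real.pi = ‖z‖ ^ 2 := by unfold ar; field_simp
  rw [h1, Real.sqrt_sq (norm_nonneg z)]

/-- a smooth local lift of the angle -/
theorem exists_local_lift {V : ℂ} (hV : V ≠ 0) :
    ∃ β : ℂ → ℝ, ContDiffAt ℝ ∞ β V ∧
      ∀ᶠ y in nhds V, y ≠ 0 ∧ phiA ((ar y : ℂ) + (β y : ℂ) * Complex.I) = y ∧
        uph y = ee (β y) := by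
  have hpi := Real.pi_pos
  obtain ⟨t, ht⟩ := exists_ee_uph hV
  have heV : ee (-t) * V = ((‖V‖ : ℝ) : ℂ) := by
    have h1 := polar hV
    rw [norm_eq_sqrt, ht] at h1
    calc ee (-t) * V = ee (-t) * (((‖V‖ : ℝ) : ℂ) * ee t) := by rw [← h1]
      _ = ((‖V‖ : ℝ) : ℂ) * (ee (-t) * ee t) := by ring
      _ = _ := by rw [ee_neg_mul, mul_one]
  have hsl : ee (-t) * V ∈ Complex.slitPlane := by
    rw [heV]
    exact Complex.ofReal_mem_slitPlane.2 (norm_pos_iff.2 hV)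
  have hlog : ContDiffAt ℝ ∞ (fun y : ℂ => (Complex.log (ee (-t) * y)).im) V := by
    have h1 : ContDiffAt ℝ ∞ Complex.log (ee (-t) * V) :=
      (Complex.contDiffAt_log hsl).restrict_scalars ℝ
    have h2 : ContDiffAt ℝ ∞ (fun y : ℂ => ee (-t) * y) V := contDiffAt_const.mul contDiffAt_id
    exact Complex.imCLM.contDiff.contDiffAt.comp V (h1.comp V h2)
  refine ⟨fun y => t + (Complex.log (ee (-t) * y)).im / (2 * Real.pi),
    contDiffAt_const.add (hlog.div_const _), ?_⟩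
  filter_upwards [isOpen_ne.mem_nhds hV] with y hy
  have h3 : ee (t + (Complex.log (ee (-t) * y)).im / (2 * Real.pi)) = uph y := by
    rw [ee_add, Complex.log_im]
    have h4 : ee (Complex.arg (ee (-t) * y) / (2 * Real.pi)) = uph (ee (-t) * y) := by
      have h5 := Complex.norm_mul_exp_arg_mul_I (ee (-t) * y)
      have h6 : 2 * Real.pi * (Complex.arg (ee (-t) * y) / (2 * Real.pi)) =
        Complex.arg (ee (-t) * y) := by field_simp
      rw [uph_def]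
      conv_rhs => rw [← h5]
      unfold ee at *
      rw [h6]
      have h7 : ‖Complex.exp (((2 * Real.pi * -t : ℝ) : ℂ) * Complex.I) * y‖ ≠ 0 := by
        rw [norm_mul, Complex.norm_exp_ofReal_mul_I, one_mul]
        exact norm_ne_zero_iff.2 hy
      rw [← mul_assoc]
      simp only [norm_mul, Complex.norm_exp_ofReal_mul_I, one_mul, mul_one, norm_norm,
        Complex.norm_real]
      rw [← Complex.ofReal_mul, inv_mul_cancel₀ (norm_ne_zero_iff.2 hy)]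
      simp
    rw [h4, uph_mul_ee, ← mul_assoc, ee_mul_neg, one_mul]
  refine ⟨hy, ?_, h3.symm⟩
  rw [phiA_polar, h3, ← polar hy]

end Basics

/-- the form of a local lift -/
theorem lift_wd {V : ℂ} (hV : V ≠ 0) {β : ℂ → ℝ} (hβ : ContDiffAt ℝ ∞ β V)
    (h : ∀ᶠ y in nhds V, y ≠ 0 ∧ phiA ((ar y : ℂ) + (β y : ℂ) * Complex.I) = y ∧
      uph y = ee (β y)) (v w : ℂ) : wd (arD V) (fderiv ℝ β V) v w = om1 v w := by
  have hb : HasFDerivAt β (fderiv ℝ β V) V := (hβ.differentiableAt (by simp)).hasFDerivAt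
  have h1 := om1_phiA (a := ar) (b := β) (ar_hasFDerivAt V) hb (ar_pos.2 hV) v w
  have h2 : (fun y => phiA ((ar y : ℂ) + (β y : ℂ) * Complex.I)) =ᶠ[nhds V] fun y => y := by
    filter_upwards [h] with y hy using hy.2.1
  rw [h2.fderiv_eq] at h1
  have h3 : fderiv ℝ (fun y : ℂ => y) V = ContinuousLinearMap.id ℝ ℂ := fderiv_id
  rw [h3] at h1
  exact h1.symm

section Bend

variable {r δ ε c : ℝ} {s : ℝ → ℝ} {τ : ℂ → ℂ} {φ : ℂ → ℝ} {S G : ℂ × ℂ → ℂ × ℂ}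

/-- The bend: the gate `G` with time `ar V - c + ar z`, in the frame of `V`. -/
noncomputable def bend (G : ℂ × ℂ → ℂ × ℂ) (c : ℝ) (x : ℂ × ℂ) : ℂ × ℂ :=
  (uph x.1 * (G (((ar x.1 - c + ar x.2 : ℝ) : ℂ), (starRingEnd ℂ) (uph x.1) * x.2)).1,
    (starRingEnd ℂ) (uph x.1) *
      (G (((ar x.1 - c + ar x.2 : ℝ) : ℂ), (starRingEnd ℂ) (uph x.1) * x.2)).2)

/-- the frame change in front of the bend -/
noncomputable def fr2 (c : ℝ) (β : ℂ → ℝ) (x : ℂ × ℂ) : ℂ × ℂ :=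
  (((ar x.1 - c + ar x.2 : ℝ) : ℂ) + ((β x.1 : ℝ) : ℂ) * Complex.I, ee (-β x.1) * x.2)

theorem bend_eq (hG : OG r δ ε s τ φ S G) {x : ℂ × ℂ} {β : ℂ → ℝ}
    (h : uph x.1 = ee (β x.1)) : bend G c x = G (fr2 c β x) := by
  unfold bend fr2
  have h1 := hG.rot (((ar x.1 - c + ar x.2 : ℝ) : ℂ), ee (-β x.1) * x.2) (β x.1)
  simp only at h1
  rw [h1, h, conj_ee]

theorem fr2_contDiffAt {x : ℂ × ℂ} {β : ℂ → ℝ} (hβ : ContDiffAt ℝ ∞ β x.1) :
    ContDiffAt ℝ ∞ (fr2 c β) x := by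
  have hb : ContDiffAt ℝ ∞ (fun x : ℂ × ℂ => β x.1) x := hβ.comp x contDiffAt_fst
  have h1 : ContDiffAt ℝ ∞ (fun x : ℂ × ℂ => ar x.1 - c + ar x.2) x :=
    ((ar_contDiff.comp contDiff_fst).contDiffAt.sub contDiffAt_const).add
      (ar_contDiff.comp contDiff_snd).contDiffAt
  exact ((Complex.ofRealCLM.contDiff.contDiffAt.comp x h1).add
    ((Complex.ofRealCLM.contDiff.contDiffAt.comp x hb).mul contDiffAt_const)).prodMk
      ((ee_contDiff.contDiffAt.comp x hb.neg).mul contDiffAt_snd)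

theorem fr2_sympl {x : ℂ × ℂ} (hx : x.1 ≠ 0) {β : ℂ → ℝ} (hβ : ContDiffAt ℝ ∞ β x.1)
    (h : ∀ᶠ y in nhds x.1, y ≠ 0 ∧ phiA ((ar y : ℂ) + (β y : ℂ) * Complex.I) = y ∧
      uph y = ee (β y)) (v w : ℂ × ℂ) :
    om2 (fderiv ℝ (fr2 c β) x v) (fderiv ℝ (fr2 c β) x w) = om2 v w := by
  have hb0 : HasFDerivAt β (fderiv ℝ β x.1) x.1 := (hβ.differentiableAt (by simp)).hasFDerivAt
  have hb : HasFDerivAt (fun x : ℂ × ℂ => β x.1)
      ((fderiv ℝ β x.1).comp (ContinuousLinearMap.fst ℝ ℂ ℂ)) x :=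
    HasFDerivAt.comp (g := β) (f := Prod.fst) x hb0
      (ContinuousLinearMap.fst ℝ ℂ ℂ).hasFDerivAt
  have ha1 : HasFDerivAt (fun x : ℂ × ℂ => ar x.1)
      ((arD x.1).comp (ContinuousLinearMap.fst ℝ ℂ ℂ)) x :=
    HasFDerivAt.comp (g := ar) (f := Prod.fst) x (ar_hasFDerivAt x.1)
      (ContinuousLinearMap.fst ℝ ℂ ℂ).hasFDerivAt
  have ha2 : HasFDerivAt (fun x : ℂ × ℂ => ar x.2)
      ((arD x.2).comp (ContinuousLinearMap.snd ℝ ℂ ℂ)) x :=
    HasFDerivAt.comp (g := ar) (f := Prod.snd) x (ar_hasFDerivAt x.2)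
      (ContinuousLinearMap.snd ℝ ℂ ℂ).hasFDerivAt
  have ha : HasFDerivAt (fun x : ℂ × ℂ => ar x.1 - c + ar x.2)
      ((arD x.1).comp (ContinuousLinearMap.fst ℝ ℂ ℂ) +
        (arD x.2).comp (ContinuousLinearMap.snd ℝ ℂ ℂ)) x := (ha1.sub_const c).add ha2
  have hsnd : HasFDerivAt (fun x : ℂ × ℂ => x.2) (ContinuousLinearMap.snd ℝ ℂ ℂ) x :=
    (ContinuousLinearMap.snd ℝ ℂ ℂ).hasFDerivAt
  have hd := (fr2_contDiffAt (c := c) hβ).differentiableAt (by simp)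
  have h1 : HasFDerivAt (fun y : ℂ × ℂ => (fr2 c β y).1)
      (Complex.ofRealCLM.comp ((arD x.1).comp (ContinuousLinearMap.fst ℝ ℂ ℂ) +
        (arD x.2).comp (ContinuousLinearMap.snd ℝ ℂ ℂ)) +
        (Complex.ofRealCLM.comp
          ((fderiv ℝ β x.1).comp (ContinuousLinearMap.fst ℝ ℂ ℂ))).smulRight Complex.I) x := by
    have k1 : HasFDerivAt (fun x : ℂ × ℂ => ((ar x.1 - c + ar x.2 : ℝ) : ℂ)) _ x :=
      Complex.ofRealCLM.hasFDerivAt.comp x ha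
    have k2 : HasFDerivAt (fun x : ℂ × ℂ => ((β x.1 : ℝ) : ℂ)) _ x :=
      Complex.ofRealCLM.hasFDerivAt.comp x hb
    refine (k1.add (k2.mul_const Complex.I)).congr_fderiv ?_
    ext v
    · simp
      ring
    · simp
  have g2 := om1_phase (ψ := fun x : ℂ × ℂ => -β x.1) (h := fun x : ℂ × ℂ => x.2) hb.neg hsnd v w
  have key := lift_wd hx hβ h v.1 w.1
  rw [om2_fderiv hd, h1.fderiv]
  have e2 : (fun y : ℂ × ℂ => (fr2 c β y).2) = fun y => ee (-β y.1) * y.2 := rfl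
  rw [e2, g2]
  unfold om2
  rw [← key]
  unfold wd om1
  simp only [ContinuousLinearMap.comp_apply, ContinuousLinearMap.coe_fst',
    ContinuousLinearMap.coe_snd', neg_apply, add_apply, ContinuousLinearMap.smulRight_apply,
    Complex.ofRealCLM_apply, smul_eq_mul, Complex.add_re, Complex.add_im, Complex.ofReal_re,
    Complex.ofReal_im, Complex.mul_re, Complex.mul_im, Complex.I_re, Complex.I_im]
  ring

theorem bend_eventually (hG : OG r δ ε s τ φ S G) {x : ℂ × ℂ} {β : ℂ → ℝ}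
    (h : ∀ᶠ y in nhds x.1, y ≠ 0 ∧ phiA ((ar y : ℂ) + (β y : ℂ) * Complex.I) = y ∧
      uph y = ee (β y)) : bend G c =ᶠ[nhds x] fun y => G (fr2 c β y) := by
  have h0 : Filter.Tendsto (fun y : ℂ × ℂ => y.1) (nhds x) (nhds x.1) :=
    continuous_fst.continuousAt
  have h1 := h0.eventually h
  filter_upwards [h1] with y hy
  exact bend_eq hG hy.2.2

theorem bend_contDiffAt (hG : OG r δ ε s τ φ S G) {x : ℂ × ℂ} (hx : x.1 ≠ 0)
    (hr : ‖x.2‖ < r) : ContDiffAt ℝ ∞ (bend G c) x := by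
  obtain ⟨β, hβ, h⟩ := exists_local_lift hx
  have h1 : ContDiffAt ℝ ∞ G (fr2 c β x) := hG.smooth _ (by
    show ‖ee (-β x.1) * x.2‖ < r
    rwa [norm_mul, ee_norm, one_mul])
  exact (h1.comp x (fr2_contDiffAt hβ)).congr_of_eventuallyEq (bend_eventually hG h)

theorem bend_sympl (hG : OG r δ ε s τ φ S G) {x : ℂ × ℂ} (hx : x.1 ≠ 0)
    (hr : ‖x.2‖ < r) (v w : ℂ × ℂ) :
    om2 (fderiv ℝ (bend G c) x v) (fderiv ℝ (bend G c) x w) = om2 v w := by
  obtain ⟨β, hβ, h⟩ := exists_local_lift hx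
  have h0 : ‖(fr2 c β x).2‖ < r := by
    show ‖ee (-β x.1) * x.2‖ < r
    rwa [norm_mul, ee_norm, one_mul]
  have h1 : DifferentiableAt ℝ G (fr2 c β x) := (hG.smooth _ h0).differentiableAt (by simp)
  have h2 : DifferentiableAt ℝ (fr2 c β) x := (fr2_contDiffAt hβ).differentiableAt (by simp)
  rw [(bend_eventually hG h).fderiv_eq]
  have h3 : fderiv ℝ (fun y => G (fr2 c β y)) x =
      (fderiv ℝ G (fr2 c β x)).comp (fderiv ℝ (fr2 c β) x) := fderiv_comp x h1 h2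
  rw [h3]
  simp only [ContinuousLinearMap.comp_apply]
  rw [hG.sympl _ h0, fr2_sympl hx hβ h]

theorem bend_input_norm {x : ℂ × ℂ} (hx : x.1 ≠ 0) :
    ‖(starRingEnd ℂ) (uph x.1) * x.2‖ = ‖x.2‖ := by
  rw [norm_mul, conj_uph_norm hx, one_mul]

theorem ar_bend_fst {x : ℂ × ℂ} (hx : x.1 ≠ 0) : ar (bend G c x).1 =
    ar (G (((ar x.1 - c + ar x.2 : ℝ) : ℂ), (starRingEnd ℂ) (uph x.1) * x.2)).1 :=
  ar_mul_of_norm_one (uph_norm hx)

theorem ar_bend_snd {x : ℂ × ℂ} (hx : x.1 ≠ 0) : ar (bend G c x).2 =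
    ar (G (((ar x.1 - c + ar x.2 : ℝ) : ℂ), (starRingEnd ℂ) (uph x.1) * x.2)).2 :=
  ar_mul_of_norm_one (conj_uph_norm hx)

theorem bend_diff (hG : OG r δ ε s τ φ S G) {x : ℂ × ℂ} (hx : x.1 ≠ 0)
    (hr : ‖x.2‖ < r) : ar (bend G c x).1 - ar (bend G c x).2 = ar x.1 - c + ar x.2 := by
  rw [ar_bend_fst hx, ar_bend_snd hx, hG.diff _ (by simpa only [bend_input_norm hx] using hr)]
  simp

theorem bend_sum (hG : OG r δ ε s τ φ S G) {x : ℂ × ℂ} (hx : x.1 ≠ 0)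
    (hr : ‖x.2‖ < r) : ar (bend G c x).1 + ar (bend G c x).2 ≤
      2 * ar x.2 + |ar x.1 - c + ar x.2| + ε := by
  rw [ar_bend_fst hx, ar_bend_snd hx]
  have h := hG.sum (((ar x.1 - c + ar x.2 : ℝ) : ℂ), (starRingEnd ℂ) (uph x.1) * x.2)
    (by simpa only [bend_input_norm hx] using hr)
  simp only [Complex.ofReal_re] at h
  rwa [ar_mul_of_norm_one (conj_uph_norm hx)] at h

theorem bend_inj (hG : OG r δ ε s τ φ S G) {x y : ℂ × ℂ} (hx : x.1 ≠ 0) (hy : y.1 ≠ 0)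
    (hrx : ‖x.2‖ < r) (hry : ‖y.2‖ < r) (h : bend G c x = bend G c y) : x = y := by
  obtain ⟨β, -, hβ⟩ := exists_local_lift hx
  obtain ⟨β', -, hβ'⟩ := exists_local_lift hy
  have h1 := hβ.self_of_nhds
  have h2 := hβ'.self_of_nhds
  rw [bend_eq hG h1.2.2, bend_eq hG h2.2.2] at h
  obtain ⟨l, hl⟩ := hG.inj _ _ (by
    show ‖ee (-β x.1) * x.2‖ < r
    rwa [norm_mul, ee_norm, one_mul]) (by
    show ‖ee (-β' y.1) * y.2‖ < r
    rwa [norm_mul, ee_norm, one_mul]) h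
  have k1 := congrArg Prod.fst hl
  have k2 := congrArg Prod.snd hl
  simp only [fr2] at k1 k2
  have k3 := congrArg Complex.re k1
  have k4 := congrArg Complex.im k1
  simp at k3 k4
  have k5 : ee (β' y.1) = ee (β x.1) := by rw [k4, ee_add_int]
  have k6 : uph x.1 = uph y.1 := by rw [h1.2.2, h2.2.2, k5]
  have k7 : ee (-β' y.1) = ee (-β x.1) := by rw [← conj_ee, ← conj_ee, k5]
  have k8 : y.2 = x.2 := by
    rw [k7] at k2
    exact mul_left_cancel₀ (ee_ne_zero _) k2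
  have k9 : ar x.1 = ar y.1 := by rw [k8] at k3; linarith
  exact Prod.ext (eq_of_ar_uph hx hy k9 k6) k8.symm

end Bend

end Vale.Agent.P209.H686
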