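import Vale.Agent.P209.H686.Left

/-!
# The left chart: `EL` and `toK`
-/

namespace Vale.Agent.P209.H686

open Vale.Agent.P209 H684 H578 H721 H974 H687
open Vale.Agent.P209.Strong hiding chi
open scoped ContDiff

theorem omega3 (v w : Fin 3 → ℂ) :
    omega v w = om1 (v 0) (w 0) + om1 (v 1) (w 1) + om1 (v 2) (w 2) := by
  unfold omega om1
  rw [Fin.sum_univ_three]

theorem slot_fderiv {F : (Fin 3 → ℂ) → (Fin 3 → ℂ)} {w : Fin 3 → ℂ}
    (hF : DifferentiableAt ℝ F w) (i : Fin 3) (x : Fin 3 → ℂ) :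
    fderiv ℝ F w x i = fderiv ℝ (fun w => F w i) w x := by
  have h := (hasFDerivAt_pi'.1 hF.hasFDerivAt) i
  rw [h.fderiv]
  rfl

theorem OG.fst_ne {r δ ε : ℝ} {s : ℝ → ℝ} {τ : ℂ → ℂ} {φ : ℂ → ℝ} {S G : ℂ × ℂ → ℂ × ℂ}
    (hG : OG r δ ε s τ φ S G) {a : ℝ} (ha : 0 ≤ a) (hs : ∀ t, t ≤ a → s t = 1) {x : ℂ × ℂ}
    (hx : ‖x.2‖ < r) : (G x).1 ≠ 0 := by
  rw [← ar_pos]
  rcases le_or_gt x.1.re a with h | h
  · exact (ar_pos.2 (hG.tau_ne _ hx)).trans_le (hG.pos1 x hx (hs _ h))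
  · have h1 := hG.diff x hx
    have h2 := ar_nonneg (G x).2
    linarith

section EL

variable {r c δ1 ε1 δ2 ε2 : ℝ} {s1 s2 : ℝ → ℝ} {τ1 τ2 : ℂ → ℂ} {φ1 φ2 : ℂ → ℝ}
  {S1 g1 S2 g2 : ℂ × ℂ → ℂ × ℂ}

/-- the input of the bend -/
noncomputable def ELi (g2 : ℂ × ℂ → ℂ × ℂ) (w : Fin 3 → ℂ) : ℂ × ℂ := ((g2 (w 0, w 2)).1, w 1)

theorem EL_zero (w : Fin 3 → ℂ) : EL c g2 g1 w 0 = (bend g1 c (ELi g2 w)).2 := rfl
theorem EL_one (w : Fin 3 → ℂ) : EL c g2 g1 w 1 = (g2 (w 0, w 2)).2 := rfl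
theorem EL_two (w : Fin 3 → ℂ) : EL c g2 g1 w 2 = (bend g1 c (ELi g2 w)).1 := rfl

/-- the linear map to the slots `0`, `2` -/
noncomputable def prL : (Fin 3 → ℂ) →L[ℝ] ℂ × ℂ :=
  (ContinuousLinearMap.proj (R := ℝ) (φ := fun _ : Fin 3 => ℂ) 0).prod
    (ContinuousLinearMap.proj (R := ℝ) (φ := fun _ : Fin 3 => ℂ) 2)

theorem prL_apply (w : Fin 3 → ℂ) : prL w = (w 0, w 2) := rfl

variable (h1 : OG r δ1 ε1 s1 τ1 φ1 S1 g1) (h2 : OG r δ2 ε2 s2 τ2 φ2 S2 g2)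

include h2 in
theorem g2_contDiffAt {w : Fin 3 → ℂ} (hw2 : ‖w 2‖ < r) :
    ContDiffAt ℝ ∞ (fun w : Fin 3 → ℂ => g2 (w 0, w 2)) w :=
  ContDiffAt.comp (g := g2) (f := fun w : Fin 3 → ℂ => (w 0, w 2)) w (h2.smooth _ hw2)
    ((contDiff_apply ℝ ℂ (0 : Fin 3)).prodMk (contDiff_apply ℝ ℂ (2 : Fin 3))).contDiffAt

include h2 in
theorem ELi_contDiffAt {w : Fin 3 → ℂ} (hw2 : ‖w 2‖ < r) : ContDiffAt ℝ ∞ (ELi g2) w :=
  (g2_contDiffAt h2 hw2).fst.prodMk (contDiff_apply ℝ ℂ (1 : Fin 3)).contDiffAt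

include h1 h2 in
theorem ELb_contDiffAt {w : Fin 3 → ℂ} (hw1 : ‖w 1‖ < r) (hw2 : ‖w 2‖ < r)
    (hV : (g2 (w 0, w 2)).1 ≠ 0) : ContDiffAt ℝ ∞ (fun w => bend g1 c (ELi g2 w)) w :=
  ContDiffAt.comp (g := bend g1 c) (f := ELi g2) w (bend_contDiffAt h1 hV hw1)
    (ELi_contDiffAt h2 hw2)

include h1 h2 in
theorem EL_contDiffAt {w : Fin 3 → ℂ} (hw1 : ‖w 1‖ < r) (hw2 : ‖w 2‖ < r)
    (hV : (g2 (w 0, w 2)).1 ≠ 0) : ContDiffAt ℝ ∞ (EL c g2 g1) w := by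
  have hb := ELb_contDiffAt (c := c) h1 h2 hw1 hw2 hV
  rw [contDiffAt_pi]
  intro i
  fin_cases i
  · exact hb.snd
  · exact (g2_contDiffAt h2 hw2).snd
  · exact hb.fst

include h2 in
theorem g2_sympl3 {w : Fin 3 → ℂ} (hw2 : ‖w 2‖ < r) (x y : Fin 3 → ℂ) :
    om2 (fderiv ℝ (fun w : Fin 3 → ℂ => g2 (w 0, w 2)) w x)
      (fderiv ℝ (fun w : Fin 3 → ℂ => g2 (w 0, w 2)) w y) =
      om1 (x 0) (y 0) + om1 (x 2) (y 2) := by
  have hd : DifferentiableAt ℝ g2 (w 0, w 2) := (h2.smooth _ hw2).differentiableAt (by simp)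
  have hc : HasFDerivAt (fun w : Fin 3 → ℂ => g2 (w 0, w 2))
      ((fderiv ℝ g2 (w 0, w 2)).comp prL) w :=
    HasFDerivAt.comp (g := g2) (f := fun w : Fin 3 → ℂ => (w 0, w 2)) w hd.hasFDerivAt
      prL.hasFDerivAt
  rw [hc.fderiv]
  simp only [ContinuousLinearMap.comp_apply]
  rw [h2.sympl _ hw2]
  rfl

include h1 h2 in
theorem EL_sympl {w : Fin 3 → ℂ} (hw1 : ‖w 1‖ < r) (hw2 : ‖w 2‖ < r)
    (hV : (g2 (w 0, w 2)).1 ≠ 0) (x y : Fin 3 → ℂ) :
    omega (fderiv ℝ (EL c g2 g1) w x) (fderiv ℝ (EL c g2 g1) w y) = omega x y := by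
  have hEL : DifferentiableAt ℝ (EL c g2 g1) w :=
    (EL_contDiffAt h1 h2 hw1 hw2 hV).differentiableAt (by simp)
  have hA : DifferentiableAt ℝ (fun w : Fin 3 → ℂ => g2 (w 0, w 2)) w :=
    (g2_contDiffAt h2 hw2).differentiableAt (by simp)
  have hB : DifferentiableAt ℝ (fun w => bend g1 c (ELi g2 w)) w :=
    (ELb_contDiffAt h1 h2 hw1 hw2 hV).differentiableAt (by simp)
  have hb : DifferentiableAt ℝ (bend g1 c) (ELi g2 w) :=
    (bend_contDiffAt (x := ELi g2 w) h1 hV hw1).differentiableAt (by simp)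
  have hi : DifferentiableAt ℝ (ELi g2) w := (ELi_contDiffAt h2 hw2).differentiableAt (by simp)
  have e0 : ∀ x, fderiv ℝ (EL c g2 g1) w x 0 = (fderiv ℝ (fun w => bend g1 c (ELi g2 w)) w x).2 :=
    fun x => by
      rw [slot_fderiv hEL]
      have h := hB.hasFDerivAt.snd
      exact congrArg (fun L : (Fin 3 → ℂ) →L[ℝ] ℂ => L x) h.fderiv
  have e2 : ∀ x, fderiv ℝ (EL c g2 g1) w x 2 = (fderiv ℝ (fun w => bend g1 c (ELi g2 w)) w x).1 :=
    fun x => by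
      rw [slot_fderiv hEL]
      have h := hB.hasFDerivAt.fst
      exact congrArg (fun L : (Fin 3 → ℂ) →L[ℝ] ℂ => L x) h.fderiv
  have e1 : ∀ x, fderiv ℝ (EL c g2 g1) w x 1 =
      (fderiv ℝ (fun w : Fin 3 → ℂ => g2 (w 0, w 2)) w x).2 :=
    fun x => by
      rw [slot_fderiv hEL]
      have h := hA.hasFDerivAt.snd
      exact congrArg (fun L : (Fin 3 → ℂ) →L[ℝ] ℂ => L x) h.fderiv
  have hBc : ∀ x, fderiv ℝ (fun w => bend g1 c (ELi g2 w)) w x =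
      fderiv ℝ (bend g1 c) (ELi g2 w)
        ((fderiv ℝ (fun w : Fin 3 → ℂ => g2 (w 0, w 2)) w x).1, x 1) := fun x => by
    have h3 : HasFDerivAt (ELi g2)
        (((ContinuousLinearMap.fst ℝ ℂ ℂ).comp
          (fderiv ℝ (fun w : Fin 3 → ℂ => g2 (w 0, w 2)) w)).prod
          (ContinuousLinearMap.proj (R := ℝ) (φ := fun _ : Fin 3 => ℂ) 1)) w :=
      hA.hasFDerivAt.fst.prodMk
        (ContinuousLinearMap.proj (R := ℝ) (φ := fun _ : Fin 3 => ℂ) 1).hasFDerivAt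
    have h4 := HasFDerivAt.comp (g := bend g1 c) (f := ELi g2) w hb.hasFDerivAt h3
    exact congrArg (fun L : (Fin 3 → ℂ) →L[ℝ] ℂ × ℂ => L x) h4.fderiv
  have k1 := g2_sympl3 h2 hw2 x y
  have k2 : om2 (fderiv ℝ (fun w => bend g1 c (ELi g2 w)) w x)
      (fderiv ℝ (fun w => bend g1 c (ELi g2 w)) w y) =
      om1 (fderiv ℝ (fun w : Fin 3 → ℂ => g2 (w 0, w 2)) w x).1
        (fderiv ℝ (fun w : Fin 3 → ℂ => g2 (w 0, w 2)) w y).1 + om1 (x 1) (y 1) := by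
    rw [hBc, hBc, bend_sympl (x := ELi g2 w) h1 hV hw1]
    rfl
  rw [omega3, omega3, e0, e0, e1, e1, e2, e2]
  unfold om2 at k1 k2
  linarith

include h1 h2 in
theorem EL_inj {w w' : Fin 3 → ℂ} (hw1 : ‖w 1‖ < r) (hw2 : ‖w 2‖ < r)
    (hV : (g2 (w 0, w 2)).1 ≠ 0) (hw1' : ‖w' 1‖ < r) (hw2' : ‖w' 2‖ < r)
    (hV' : (g2 (w' 0, w' 2)).1 ≠ 0) (h : EL c g2 g1 w = EL c g2 g1 w') :
    ∃ l : ℤ, w' = sft l w := by
  have e0 := congrFun h 0
  have e1 := congrFun h 1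
  have e2 := congrFun h 2
  rw [EL_zero, EL_zero] at e0
  rw [EL_one, EL_one] at e1
  rw [EL_two, EL_two] at e2
  have h3 : ELi g2 w = ELi g2 w' := bend_inj h1 hV hV' hw1 hw1' (Prod.ext e2 e0)
  have h4 : (ELi g2 w).1 = (ELi g2 w').1 := congrArg Prod.fst h3
  have h5 : w 1 = w' 1 := congrArg Prod.snd h3
  obtain ⟨l, hl⟩ := h2.inj (w 0, w 2) (w' 0, w' 2) hw2 hw2' (Prod.ext h4 e1)
  refine ⟨l, ?_⟩
  have h6 := congrArg Prod.fst hl
  have h7 := congrArg Prod.snd hl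
  simp only at h6 h7
  funext i
  fin_cases i
  · show w' 0 = sft l w 0
    rw [sft_zero_slot, h6]
  · show w' 1 = sft l w (Fin.succ 0)
    rw [sft_succ]
    exact h5.symm
  · show w' 2 = sft l w (Fin.succ 1)
    rw [sft_succ]
    exact h7

include h2 in
theorem EL_sft (w : Fin 3 → ℂ) (l : ℤ) : EL c g2 g1 (sft l w) = EL c g2 g1 w := by
  have h3 : g2 (sft l w 0, sft l w 2) = g2 (w 0, w 2) := by
    have h4 : sft l w 2 = w 2 := sft_succ l w 1
    have h5 := h2.rot (w 0, w 2) (l : ℝ)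
    rw [sft_zero_slot, h4]
    rw [ee_int, show (-(l : ℝ)) = ((-l : ℤ) : ℝ) by push_cast; ring, ee_int, one_mul, one_mul] at h5
    simpa using h5
  have h6 : sft l w 1 = w 1 := sft_succ l w 0
  unfold EL
  rw [h3, h6]

end EL

section toK

variable {R c : ℝ}

theorem toK_zero (v : Fin 3 → ℂ) :
    toK R c v 0 = ((kap R c v : ℝ) : ℂ) + ((-(v 0).im : ℝ) : ℂ) * Complex.I := rfl
theorem toK_one (v : Fin 3 → ℂ) : toK R c v 1 = ee (-(v 0).im) * v 1 := rfl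
theorem toK_two (v : Fin 3 → ℂ) : toK R c v 2 = v 2 := rfl

theorem toK_zero_re (v : Fin 3 → ℂ) : (toK R c v 0).re = kap R c v := by
  rw [toK_zero]; simp
theorem toK_zero_im (v : Fin 3 → ℂ) : (toK R c v 0).im = -(v 0).im := by
  rw [toK_zero]; simp
theorem norm_toK_one (v : Fin 3 → ℂ) : ‖toK R c v 1‖ = ‖v 1‖ := by
  rw [toK_one, norm_mul, ee_norm, one_mul]
theorem ar_toK_one (v : Fin 3 → ℂ) : ar (toK R c v 1) = ar (v 1) := by
  rw [toK_one, ar_mul_of_norm_one (ee_norm _)]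

theorem kap_contDiff : ContDiff ℝ ∞ (kap R c) := by
  have h1 : ContDiff ℝ ∞ (fun v : Fin 3 → ℂ => ar (v 1)) :=
    ar_contDiff.comp (contDiff_apply ℝ ℂ (1 : Fin 3))
  have h2 : ContDiff ℝ ∞ (fun v : Fin 3 → ℂ => (v 0).re) :=
    Complex.reCLM.contDiff.comp (contDiff_apply ℝ ℂ (0 : Fin 3))
  exact (contDiff_const.sub h1).sub h2

theorem toK_contDiff : ContDiff ℝ ∞ (toK R c) := by
  have h2 : ContDiff ℝ ∞ (fun v : Fin 3 → ℂ => -(v 0).im) :=
    (Complex.imCLM.contDiff.comp (contDiff_apply ℝ ℂ (0 : Fin 3))).neg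
  rw [contDiff_pi]
  intro i
  fin_cases i
  · exact (Complex.ofRealCLM.contDiff.comp kap_contDiff).add
      ((Complex.ofRealCLM.contDiff.comp h2).mul contDiff_const)
  · exact (ee_contDiff.comp h2).mul (contDiff_apply ℝ ℂ (1 : Fin 3))
  · exact contDiff_apply ℝ ℂ (2 : Fin 3)

theorem toK_sympl (v x y : Fin 3 → ℂ) :
    omega (fderiv ℝ (toK R c) v x) (fderiv ℝ (toK R c) v y) = omega x y := by
  have hd : DifferentiableAt ℝ (toK R c) v := toK_contDiff.contDiffAt.differentiableAt (by simp)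
  have p0 : HasFDerivAt (fun v : Fin 3 → ℂ => v 0)
      (ContinuousLinearMap.proj (R := ℝ) (φ := fun _ : Fin 3 => ℂ) 0) v :=
    (ContinuousLinearMap.proj (R := ℝ) (φ := fun _ : Fin 3 => ℂ) 0).hasFDerivAt
  have p1 : HasFDerivAt (fun v : Fin 3 → ℂ => v 1)
      (ContinuousLinearMap.proj (R := ℝ) (φ := fun _ : Fin 3 => ℂ) 1) v :=
    (ContinuousLinearMap.proj (R := ℝ) (φ := fun _ : Fin 3 => ℂ) 1).hasFDerivAt
  have p2 : HasFDerivAt (fun v : Fin 3 → ℂ => v 2)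
      (ContinuousLinearMap.proj (R := ℝ) (φ := fun _ : Fin 3 => ℂ) 2) v :=
    (ContinuousLinearMap.proj (R := ℝ) (φ := fun _ : Fin 3 => ℂ) 2).hasFDerivAt
  have hre : HasFDerivAt (fun v : Fin 3 → ℂ => (v 0).re)
      (Complex.reCLM.comp (ContinuousLinearMap.proj (R := ℝ) (φ := fun _ : Fin 3 => ℂ) 0)) v :=
    HasFDerivAt.comp (g := Complex.re) (f := fun v : Fin 3 → ℂ => v 0) v
      Complex.reCLM.hasFDerivAt p0
  have him : HasFDerivAt (fun v : Fin 3 → ℂ => (v 0).im)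
      (Complex.imCLM.comp (ContinuousLinearMap.proj (R := ℝ) (φ := fun _ : Fin 3 => ℂ) 0)) v :=
    HasFDerivAt.comp (g := Complex.im) (f := fun v : Fin 3 → ℂ => v 0) v
      Complex.imCLM.hasFDerivAt p0
  have har : HasFDerivAt (fun v : Fin 3 → ℂ => ar (v 1))
      ((arD (v 1)).comp (ContinuousLinearMap.proj (R := ℝ) (φ := fun _ : Fin 3 => ℂ) 1)) v :=
    HasFDerivAt.comp (g := ar) (f := fun v : Fin 3 → ℂ => v 1) v (ar_hasFDerivAt (v 1)) p1
  have hk : HasFDerivAt (kap R c)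
      (-((arD (v 1)).comp (ContinuousLinearMap.proj (R := ℝ) (φ := fun _ : Fin 3 => ℂ) 1)) -
        (Complex.reCLM.comp (ContinuousLinearMap.proj (R := ℝ) (φ := fun _ : Fin 3 => ℂ) 0))) v :=
    (har.const_sub (c - (R + c) / 2)).sub hre
  have h0 : HasFDerivAt (fun v : Fin 3 → ℂ => toK R c v 0)
      (Complex.ofRealCLM.comp (-((arD (v 1)).comp
        (ContinuousLinearMap.proj (R := ℝ) (φ := fun _ : Fin 3 => ℂ) 1)) -
        (Complex.reCLM.comp (ContinuousLinearMap.proj (R := ℝ) (φ := fun _ : Fin 3 => ℂ) 0))) +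
        (Complex.ofRealCLM.comp (-(Complex.imCLM.comp
          (ContinuousLinearMap.proj (R := ℝ) (φ := fun _ : Fin 3 => ℂ) 0)))).smulRight
            Complex.I) v := by
    have k1 : HasFDerivAt (fun v : Fin 3 → ℂ => ((kap R c v : ℝ) : ℂ)) _ v :=
      Complex.ofRealCLM.hasFDerivAt.comp v hk
    have k2 : HasFDerivAt (fun v : Fin 3 → ℂ => ((-(v 0).im : ℝ) : ℂ)) _ v :=
      Complex.ofRealCLM.hasFDerivAt.comp v him.neg
    refine (k1.add (k2.mul_const Complex.I)).congr_fderiv ?_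
    ext v
    simp
    ring
  have g1 := om1_phase (ψ := fun v : Fin 3 → ℂ => -(v 0).im) (h := fun v : Fin 3 → ℂ => v 1)
    him.neg p1 x y
  rw [omega3, omega3, slot_fderiv hd, slot_fderiv hd, slot_fderiv hd, slot_fderiv hd,
    slot_fderiv hd, slot_fderiv hd, h0.fderiv]
  have e1 : (fun v : Fin 3 → ℂ => toK R c v 1) = fun v => ee (-(v 0).im) * v 1 := rfl
  have e2 : (fun v : Fin 3 → ℂ => toK R c v 2) = fun v => v 2 := rfl
  rw [e1, e2, g1, p2.fderiv]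
  unfold wd om1
  simp only [ContinuousLinearMap.comp_apply, ContinuousLinearMap.proj_apply, neg_apply, add_apply,
    sub_apply, ContinuousLinearMap.smulRight_apply, Complex.ofRealCLM_apply, Complex.reCLM_apply,
    Complex.imCLM_apply, smul_eq_mul, Complex.add_re, Complex.add_im, Complex.ofReal_re,
    Complex.ofReal_im, Complex.mul_re, Complex.mul_im, Complex.I_re, Complex.I_im]
  ring

theorem toK_sft (v : Fin 3 → ℂ) (l : ℤ) : toK R c (sft l v) = sft (-l) (toK R c v) := by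
  have h0 : (sft l v 0).im = (v 0).im + l := sft_im l v
  have h0r : (sft l v 0).re = (v 0).re := sft_re l v
  have h1 : sft l v 1 = v 1 := sft_succ l v 0
  have h2 : sft l v 2 = v 2 := sft_succ l v 1
  funext i
  fin_cases i
  · show toK R c (sft l v) 0 = sft (-l) (toK R c v) 0
    rw [sft_zero_slot, toK_zero, toK_zero, h0]
    unfold kap
    rw [h0r, h1]
    push_cast
    ring
  · show toK R c (sft l v) 1 = sft (-l) (toK R c v) (Fin.succ 0)
    rw [sft_succ]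
    show toK R c (sft l v) 1 = toK R c v 1
    rw [toK_one, toK_one, h0, h1]
    have h3 : -((v 0).im + (l : ℝ)) = -(v 0).im + ((-l : ℤ) : ℝ) := by push_cast; ring
    rw [h3, ee_add_int]
  · show toK R c (sft l v) 2 = sft (-l) (toK R c v) (Fin.succ 1)
    rw [sft_succ]
    exact h2

theorem toK_inj {v v' : Fin 3 → ℂ} {l : ℤ} (h : toK R c v' = sft l (toK R c v)) :
    v' = sft (-l) v := by
  have e0 := congrFun h 0
  have e1 := congrFun h 1
  have e2 := congrFun h 2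
  have f1 : sft l (toK R c v) 1 = toK R c v 1 := sft_succ l _ 0
  have f2 : sft l (toK R c v) 2 = toK R c v 2 := sft_succ l _ 1
  rw [f1, toK_one, toK_one] at e1
  rw [f2, toK_two, toK_two] at e2
  have e0re := congrArg Complex.re e0
  have e0im := congrArg Complex.im e0
  rw [sft_re, toK_zero_re, toK_zero_re] at e0re
  rw [sft_im, toK_zero_im, toK_zero_im] at e0im
  have h3 : -(v' 0).im = -(v 0).im + ((l : ℤ) : ℝ) := e0im
  rw [h3, ee_add_int] at e1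
  have h4 : v' 1 = v 1 := mul_left_cancel₀ (ee_ne_zero _) e1
  unfold kap at e0re
  rw [h4] at e0re
  funext i
  fin_cases i
  · show v' 0 = sft (-l) v 0
    refine Complex.ext ?_ ?_
    · rw [sft_re]; linarith
    · rw [sft_im]; push_cast; linarith
  · show v' 1 = sft (-l) v (Fin.succ 0)
    rw [sft_succ]; exact h4
  · show v' 2 = sft (-l) v (Fin.succ 1)
    rw [sft_succ]; exact e2

end toK

end Vale.Agent.P209.H686
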