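import Vale.Agent.P209.H686.Shake
import Vale.Agent.P209.H578.Susp
import Vale.Agent.P209.H721.DCont
import Vale.Agent.P209.H863.DiscLemma

set_option linter.all false

/-! The shaking lemma, unconditionally. -/

namespace Vale.Agent.P209.H686

open scoped ContDiff
open Vale.Agent.P209.H578

theorem suspLemma : SuspLemma := by
  intro d a A ε hA hε D hD hDu
  obtain ⟨Ψ, h, φ, hΨ, hh, -, hi, hs, hg, h0, hb, -⟩ := H863.discLemma A ε hA hε
  refine ⟨susp a Ψ h D, susp_mov hΨ hh hD hDu hi hs hg, ?_⟩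
  intro w hw
  have hbb := hb (D ((w 0).re, uu w)) (w a.succ) hw
  refine ⟨fun b hb => uu_susp_ne w hb, fun h1 => ?_, ?_, ?_⟩
  · exact susp_of_nonpos h0 hw h1
  · rw [uu_susp_self]; exact hbb.1
  · rw [uu_susp_self]; exact hbb.2

/-- **(SHAKE)** -/
theorem shakeLemma : ShakeLemma := shakeLemma_of H721.dcont suspLemma

end Vale.Agent.P209.H686
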